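import Vale.Agent.P086.Spec
import Vale.Agent.P086.Lemmas
import Vale.Agent.P085.Encode.Main

/-!
# Many targets in few slots by a change of basis

The targets are split in finitely many groups. The groups are encoded one after the other, the
earlier ones on shorter lines, and the later ones move the slots by a negligible amount.
-/

noncomputable section

namespace Vale.Agent.P086

open scoped InnerProductSpace BigOperators

universe u

section Norms

variable {H : Type u} [NormedAddCommGroup H] [InnerProductSpace ℂ H] [CompleteSpace H]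
variable {Ω : H} {r : Set (H →L[ℂ] H)}

/-- A unitary factor on the left does not change the vector norm. -/
lemma norm_unitary_mul_apply {a : H →L[ℂ] H} (ha : a ∈ unitary (H →L[ℂ] H))
    (b : H →L[ℂ] H) : ‖(a * b) Ω‖ = ‖b Ω‖ := by
  have h : ((‖(a * b) Ω‖ ^ 2 : ℝ) : ℂ) = ((‖b Ω‖ ^ 2 : ℝ) : ℂ) := by
    rw [← tr_star_mul, ← tr_star_mul, star_mul, mul_assoc, ← mul_assoc (star a),
      Unitary.star_mul_self_of_mem ha, one_mul]
  exact (pow_left_inj₀ (norm_nonneg _) (norm_nonneg _) two_ne_zero).1 (by exact_mod_cast h)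

/-- With a trace, a unitary factor on the right does not change the vector norm. -/
lemma norm_mul_unitary_apply (htr : ∀ a ∈ vn r, ∀ b ∈ vn r, tr Ω (a * b) = tr Ω (b * a))
    {b : H →L[ℂ] H} (hb : b ∈ unitary (H →L[ℂ] H)) (hbr : b ∈ vn r)
    {a : H →L[ℂ] H} (har : a ∈ vn r) : ‖(a * b) Ω‖ = ‖a Ω‖ := by
  have h : ((‖(a * b) Ω‖ ^ 2 : ℝ) : ℂ) = ((‖a Ω‖ ^ 2 : ℝ) : ℂ) := by
    rw [← tr_star_mul, ← tr_star_mul, star_mul, mul_assoc,
      htr _ (vn_star hbr) _ (vn_mul (vn_star har) (vn_mul har hbr)), mul_assoc, mul_assoc,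
      Unitary.mul_star_self_of_mem hb, mul_one]
  exact (pow_left_inj₀ (norm_nonneg _) (norm_nonneg _) two_ne_zero).1 (by exact_mod_cast h)

lemma wprod_unitary {ι : Type*} {f : ι → H →L[ℂ] H} (hf : ∀ i, f i ∈ unitary (H →L[ℂ] H))
    (l : List ι) : wprod f l ∈ unitary (H →L[ℂ] H) :=
  Submonoid.list_prod_mem _ fun _ hx => by
    obtain ⟨i, -, rfl⟩ := List.mem_map.1 hx
    exact hf i

/-- A product of unitaries moves at most by the sum of the movements of its factors. -/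
lemma norm_wprod_sub_le (htr : ∀ a ∈ vn r, ∀ b ∈ vn r, tr Ω (a * b) = tr Ω (b * a))
    {ι : Type*} (f g : ι → H →L[ℂ] H)
    (hf : ∀ i, f i ∈ unitary (H →L[ℂ] H)) (hg : ∀ i, g i ∈ unitary (H →L[ℂ] H))
    (hfr : ∀ i, f i ∈ vn r) (hgr : ∀ i, g i ∈ vn r) :
    ∀ l : List ι, ‖(wprod f l - wprod g l) Ω‖ ≤ (l.map fun i => ‖(f i - g i) Ω‖).sum := by
  intro l
  induction l with
  | nil => simp [wprod_nil]
  | cons i l ih =>
    have e : f i * wprod f l - g i * wprod g l
        = f i * (wprod f l - wprod g l) + (f i - g i) * wprod g l := by noncomm_ring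
    rw [wprod_cons, wprod_cons, e, add_apply, List.map_cons, List.sum_cons]
    refine (norm_add_le _ _).trans ?_
    rw [norm_unitary_mul_apply (hf i), norm_mul_unitary_apply htr (wprod_unitary hg l)
      (vn_wprod l fun j _ => hgr j) (vn_sub (hfr i) (hgr i))]
    linarith

/-- The total movement of the lines after a movement of the slots. -/
lemma sum_wprod_sub_le (htr : ∀ a ∈ vn r, ∀ b ∈ vn r, tr Ω (a * b) = tr Ω (b * a))
    {S T : Type} [Fintype S] [Fintype T] [DecidableEq S]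
    {line : T → List S} {L d : ℕ} (hl : Lines line L d) (f g : S → H →L[ℂ] H)
    (hf : ∀ i, f i ∈ unitary (H →L[ℂ] H)) (hg : ∀ i, g i ∈ unitary (H →L[ℂ] H))
    (hfr : ∀ i, f i ∈ vn r) (hgr : ∀ i, g i ∈ vn r) :
    ∑ t, ‖(wprod f (line t) - wprod g (line t)) Ω‖ ^ 2
      ≤ L * (d * ∑ e, ‖(f e - g e) Ω‖ ^ 2) := by
  have h1 : ∀ t, ‖(wprod f (line t) - wprod g (line t)) Ω‖ ^ 2 ≤
      L * ∑ e, if e ∈ line t then ‖(f e - g e) Ω‖ ^ 2 else 0 := by
    intro t
    refine (pow_le_pow_left₀ (norm_nonneg _)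
      (norm_wprod_sub_le htr f g hf hg hfr hgr (line t)) 2).trans ?_
    rw [← List.sum_toFinset _ (hl.nodup t)]
    refine sq_sum_le_card_mul_sum_sq.trans (le_of_eq ?_)
    rw [List.toFinset_card_of_nodup (hl.nodup t), hl.len, ← Finset.sum_filter]
    congr 2
    ext e
    simp
  refine (Finset.sum_le_sum fun t _ => h1 t).trans ?_
  rw [← Finset.mul_sum, Finset.sum_comm, Finset.mul_sum (a := (d : ℝ))]
  gcongr with e
  rw [← Finset.sum_filter, Finset.sum_const, nsmul_eq_mul]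
  exact mul_le_mul_of_nonneg_right (by exact_mod_cast hl.deg e) (by positivity)

end Norms

/-- Lines restricted to some of the targets. -/
lemma Lines.comp {S T T' : Type*} [Fintype T] [Fintype T'] [DecidableEq S]
    {line : T → List S} {L d : ℕ} (hl : Lines line L d) (f : T' ↪ T) :
    Lines (fun t => line (f t)) L d where
  len _ := hl.len _
  nodup _ := hl.nodup _
  meet _ _ h := hl.meet _ _ (f.injective.ne h)
  deg e := (Finset.card_le_card_of_injOn f
    (fun _ ht => Finset.mem_coe.2 (Finset.mem_filter.2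
      ⟨Finset.mem_univ _, (Finset.mem_filter.1 (Finset.mem_coe.1 ht)).2⟩))
    f.injective.injOn).trans (hl.deg e)

lemma seg_lines' {P L d : ℕ} (hP : P.Prime) [NeZero P] (hd : d ≤ P) :
    Lines (P085.Encode.seg P L d) L d :=
  have h := P085.Encode.seg_lines hP hd (L := L)
  ⟨h.len, h.nodup, h.meet, h.deg⟩

/-- `J` groups of targets, the earlier groups on shorter lines. -/
theorem groups (hT : TraceGoal.{u}) (hS : StageGoal.{u}) (K : ℕ) (hK : 0 < K) :
    ∀ (J : ℕ) (δ : ℝ), 0 < δ → ∃ P₀ : ℕ, ∀ P : ℕ, P.Prime → P₀ ≤ P → ∀ [NeZero P],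
    ∀ {H : Type u} [NormedAddCommGroup H] [InnerProductSpace ℂ H] [CompleteSpace H] (Ω : H)
    {ι : Type} [Fintype ι] [DecidableEq ι] {T : Type} [Fintype T] [DecidableEq T]
    (u : ι → H →L[ℂ] H) (slot : Fin P × ZMod P ↪ ι) (tg : T ↪ ι)
    (_e : T ↪ Fin J × Fin (P * P / (2 * K))),
    IsBasis Ω u → (∀ s t, slot s ≠ tg t) →
    ∃ (u' : ι → H →L[ℂ] H) (X : T → H →L[ℂ] H),
      IsBasis Ω u' ∧ vn (Set.range u') = vn (Set.range u) ∧
      (∀ i, (∀ s, slot s ≠ i) → (∀ t, tg t ≠ i) → u' i = u i) ∧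
      (∑ s, ‖(u' (slot s) - u (slot s)) Ω‖ ^ 2) ≤ δ * (P : ℝ) ^ 2 ∧
      (∀ t, X t ∈ unitary (H →L[ℂ] H) ∧ X t ∈ vn (Set.range fun s => u' (slot s))) ∧
      (∑ t, ‖(X t - u (tg t)) Ω‖ ^ 2) ≤ J * (402 / (K : ℝ) ^ 2 * (P : ℝ) ^ 2) := by
  intro J
  induction J with
  | zero =>
    intro δ hδ
    refine ⟨0, fun P _ _ _ H _ _ _ Ω ι _ _ T _ _ u slot tg e hu _ => ?_⟩
    have : IsEmpty T := ⟨fun t => (e t).1.elim0⟩
    exact ⟨u, isEmptyElim, hu, rfl, fun _ _ _ => rfl, by simp; positivity, isEmptyElim, by simp⟩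
  | succ J ih =>
    intro δ hδ
    obtain ⟨d, hd1, hd2⟩ : ∃ d : ℕ, 3 ≤ d ∧ 1600 / δ ≤ d :=
      ⟨⌈1600 / δ⌉₊ + 3, by omega, by push_cast; linarith [Nat.le_ceil (1600 / δ)]⟩
    have hKr : (1:ℝ) ≤ K := by exact_mod_cast hK
    set L := K * d with hL
    have hL3 : 3 ≤ L := le_trans hd1 (Nat.le_mul_of_pos_left d hK)
    have hLd : d ≤ L := Nat.le_mul_of_pos_left d hK
    have hLr : (0:ℝ) < L := by exact_mod_cast (by omega : 0 < L)
    have hdr : (0:ℝ) < d := by exact_mod_cast (by omega : 0 < d)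
    set δ' : ℝ := min (δ / 4) (1 / (L * d * (K:ℝ) ^ 2))
    have hδ' : 0 < δ' := lt_min (by positivity) (by positivity)
    obtain ⟨P1, hP1⟩ := ih δ' hδ'
    refine ⟨max P1 L, fun P hP hP0 _ H _ _ _ Ω ι _ _ T _ _ u slot tg e hu hst => ?_⟩
    have hLP : L ≤ P := le_trans (le_max_right _ _) hP0
    have hq1 : P ≤ 2 * L * (P / L) := by
      have h1 := Nat.lt_mul_div_succ P (by omega : 0 < L)
      have h2 : 1 ≤ P / L := (Nat.one_le_div_iff (by omega)).2 hLP
      nlinarith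
    have hm : P * P / (2 * K) ≤ d * (P * (P / L)) := by
      refine Nat.div_le_of_le_mul ?_
      calc P * P ≤ P * (2 * L * (P / L)) := Nat.mul_le_mul_left P hq1
        _ = _ := by rw [hL]; ring
    obtain ⟨emb⟩ : Nonempty (Fin (P * P / (2 * K)) ↪ Fin d × ZMod P × Fin (P / L)) :=
      Function.Embedding.nonempty_of_card_le (by simpa [ZMod.card] using hm)
    -- the first group
    let T₀ := {t : T // (e t).1 = 0}
    let e₀ : T₀ ↪ Fin (P * P / (2 * K)) :=
      ⟨fun t => (e t.1).2, fun a b h =>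
        Subtype.ext (e.injective (Prod.ext (a.2.trans b.2.symm) h))⟩
    have hl : Lines (fun t : T₀ => P085.Encode.seg P L d (emb (e₀ t))) L d :=
      (seg_lines' hP (hLd.trans hLP)).comp (e₀.trans emb)
    obtain ⟨u1, γ, hu1, hvn1, hout1, hγ, herr, hmov⟩ :=
      hS Ω u slot ((Function.Embedding.subtype _).trans tg) _ L d hu (fun s t => hst s t.1) hl
        hL3 (by omega)
    -- the other groups
    let T₁ := {t : T // ¬ (e t).1 = 0}
    let e₁ : T₁ ↪ Fin J × Fin (P * P / (2 * K)) :=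
      ⟨fun t => ((e t.1).1.pred t.2, (e t.1).2), fun a b h => Subtype.ext (e.injective
        (Prod.ext ((Fin.succ_pred _ a.2).symm.trans ((congrArg Fin.succ (Prod.ext_iff.1 h).1).trans
          (Fin.succ_pred _ b.2))) (Prod.ext_iff.1 h).2))⟩
    obtain ⟨u2, X1, hu2, hvn2, hout2, hmov2, hX1, hX1e⟩ :=
      hP1 P hP (le_trans (le_max_left _ _) hP0) Ω u1 slot
        ((Function.Embedding.subtype _).trans tg) e₁ hu1 fun s t => hst s t.1
    have hkeep : ∀ t : T₁, u1 (tg t.1) = u (tg t.1) := fun t =>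
      hout1 _ (fun s => hst s t.1) fun t₀ h => t.2 (by
        have h' : t₀.1 = t.1 := tg.injective h
        exact h' ▸ t₀.2)
    have hγ0 : ∀ t, γ t ≠ 0 := fun t h => by simpa [h] using hγ t
    let X0 : T₀ → H →L[ℂ] H := fun t =>
      (γ t)⁻¹ • wprod (fun s => u2 (slot s)) (P085.Encode.seg P L d (emb (e₀ t)))
    refine ⟨u2, fun t => if h : (e t).1 = 0 then X0 ⟨t, h⟩ else X1 ⟨t, h⟩, hu2,
      hvn2.trans hvn1, ?_, ?_, ?_, ?_⟩
    · intro i hi hi'
      rw [hout2 i hi fun t => hi' t.1, hout1 i hi fun t => hi' t.1]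
    · have h1 : ∑ s, ‖(u2 (slot s) - u (slot s)) Ω‖ ^ 2 ≤
          2 * ∑ s, ‖(u2 (slot s) - u1 (slot s)) Ω‖ ^ 2 +
          2 * ∑ s, ‖(u1 (slot s) - u (slot s)) Ω‖ ^ 2 := by
        rw [Finset.mul_sum, Finset.mul_sum, ← Finset.sum_add_distrib]
        refine Finset.sum_le_sum fun s _ => ?_
        rw [← sub_add_sub_cancel (u2 (slot s)) (u1 (slot s)) (u (slot s)), add_apply]
        refine (pow_le_pow_left₀ (norm_nonneg _) (norm_add_le _ _) 2).trans ?_
        nlinarith [sq_nonneg (‖(u2 (slot s) - u1 (slot s)) Ω‖ - ‖(u1 (slot s) - u (slot s)) Ω‖)]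
      have h2 : δ' * (P:ℝ) ^ 2 ≤ δ / 4 * (P:ℝ) ^ 2 := by gcongr; exact min_le_left _ _
      have h3 : (Fintype.card (Fin P × ZMod P) : ℝ) * (400 * d / (L:ℝ) ^ 2) ≤
          δ / 4 * (P:ℝ) ^ 2 := by
        simp only [Fintype.card_prod, Fintype.card_fin, ZMod.card, Nat.cast_mul]
        rw [← pow_two, mul_comm (δ / 4)]
        refine mul_le_mul_of_nonneg_left ?_ (by positivity)
        have h4 : (d:ℝ) ^ 2 ≤ (L:ℝ) ^ 2 := by gcongr
        calc (400:ℝ) * d / (L:ℝ) ^ 2 ≤ (400:ℝ) * d / (d:ℝ) ^ 2 := by gcongr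
          _ = (400:ℝ) / d := by field_simp
          _ ≤ δ / 4 := by
            rw [div_le_iff₀ hdr]
            have := (div_le_iff₀ hδ).1 hd2
            linarith
      linarith
    · intro t
      by_cases h : (e t).1 = 0
      · simp only [dif_pos h, X0]
        refine ⟨?_, vn_smul _ (vn_wprod _ fun s _ => subset_vn _ ⟨s, rfl⟩)⟩
        refine Unitary.smul_mem_of_mem ?_ (wprod_unitary (fun s => hu2.mem _) _)
        rw [Unitary.mem_iff_self_mul_star, Complex.star_def, Complex.mul_conj']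
        simp [hγ]
      · simp only [dif_neg h]
        exact hX1 _
    · have htr := hT.2 Ω u2 hu2
      have hin1 : ∀ i, u1 i ∈ vn (Set.range u2) := fun i => hvn2.symm ▸ subset_vn _ ⟨i, rfl⟩
      have hD := sum_wprod_sub_le htr hl (fun s => u2 (slot s)) (fun s => u1 (slot s))
        (fun s => hu2.mem _) (fun s => hu1.mem _) (fun s => subset_vn _ ⟨_, rfl⟩)
        (fun s => hin1 _)
      have hA : ∑ t : T₀, ‖(X0 t - u (tg t.1)) Ω‖ ^ 2 ≤
          402 / (K:ℝ) ^ 2 * (P:ℝ) ^ 2 := by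
        have h1 : ∀ t : T₀, ‖(X0 t - u (tg t.1)) Ω‖ ^ 2 ≤
            2 * ‖(wprod (fun s => u2 (slot s)) (P085.Encode.seg P L d (emb (e₀ t))) -
              wprod (fun s => u1 (slot s)) (P085.Encode.seg P L d (emb (e₀ t)))) Ω‖ ^ 2 +
            2 * ‖(wprod (fun s => u1 (slot s)) (P085.Encode.seg P L d (emb (e₀ t))) -
              γ t • u (tg t.1)) Ω‖ ^ 2 := by
          intro t
          set A := wprod (fun s => u2 (slot s)) (P085.Encode.seg P L d (emb (e₀ t)))
          set B := wprod (fun s => u1 (slot s)) (P085.Encode.seg P L d (emb (e₀ t)))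
          have h : X0 t - u (tg t.1) = (γ t)⁻¹ • ((A - B) + (B - γ t • u (tg t.1))) := by
            rw [sub_add_sub_cancel, smul_sub, inv_smul_smul₀ (hγ0 t)]
          rw [h, smul_apply, norm_smul, norm_inv, hγ t, inv_one, one_mul, add_apply]
          refine (pow_le_pow_left₀ (norm_nonneg _) (norm_add_le _ _) 2).trans ?_
          nlinarith [sq_nonneg (‖(A - B) Ω‖ - ‖(B - γ t • u (tg t.1)) Ω‖)]
        refine (Finset.sum_le_sum fun t _ => h1 t).trans ?_
        rw [Finset.sum_add_distrib, ← Finset.mul_sum, ← Finset.mul_sum]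
        have h2 : (L:ℝ) * (d * ∑ s, ‖(u2 (slot s) - u1 (slot s)) Ω‖ ^ 2) ≤
            1 / (K:ℝ) ^ 2 * (P:ℝ) ^ 2 := by
          calc _ ≤ (L:ℝ) * (d * (1 / (L * d * (K:ℝ) ^ 2) * (P:ℝ) ^ 2)) := by
                gcongr
                refine hmov2.trans ?_
                gcongr
                exact min_le_right _ _
            _ = _ := by field_simp
        have h3 : (Fintype.card T₀ : ℝ) * (400 * d / L) ≤ 200 / (K:ℝ) ^ 2 * (P:ℝ) ^ 2 := by
          have h5 : (Fintype.card T₀ : ℝ) ≤ (P:ℝ) ^ 2 / (2 * K) := by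
            have h6 := Fintype.card_le_of_embedding e₀
            rw [Fintype.card_fin] at h6
            refine (Nat.cast_le.2 h6).trans (Nat.cast_div_le.trans (le_of_eq ?_))
            push_cast
            ring
          refine (mul_le_mul_of_nonneg_right h5 (by positivity)).trans (le_of_eq ?_)
          rw [hL]; push_cast; field_simp; ring
        have h4 : 402 / (K:ℝ) ^ 2 * (P:ℝ) ^ 2 =
            2 * (1 / (K:ℝ) ^ 2 * (P:ℝ) ^ 2) + 2 * (200 / (K:ℝ) ^ 2 * (P:ℝ) ^ 2) := by ring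
        simp only [Function.Embedding.trans_apply, Function.Embedding.subtype_apply] at herr
        linarith
      have hB : ∑ t : T₁, ‖(X1 t - u (tg t.1)) Ω‖ ^ 2 ≤
          J * (402 / (K:ℝ) ^ 2 * (P:ℝ) ^ 2) := by
        refine le_trans (le_of_eq (Finset.sum_congr rfl fun t _ => ?_)) hX1e
        simp only [Function.Embedding.trans_apply, Function.Embedding.subtype_apply, hkeep t]
      rw [← Fintype.sum_subtype_add_sum_subtype (fun t : T => (e t).1 = 0)]
      have e1 : ∀ t : T₀, (if h : (e t.1).1 = 0 then X0 ⟨t.1, h⟩ else X1 ⟨t.1, h⟩) = X0 t :=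
        fun t => dif_pos t.2
      have e2 : ∀ t : T₁, (if h : (e t.1).1 = 0 then X0 ⟨t.1, h⟩ else X1 ⟨t.1, h⟩) = X1 t :=
        fun t => dif_neg t.2
      simp only [e1, e2]
      rw [Nat.cast_succ]
      linarith

/-- Many targets in few slots by a change of basis. -/
theorem encodeGoal (hT : TraceGoal.{u}) (hS : StageGoal.{u}) : EncodeGoal.{u} := by
  intro C ε δ hε hδ
  obtain ⟨K, hK, hKC⟩ : ∃ K : ℕ, 0 < K ∧ 1608 * (C:ℝ) / ε ≤ K :=
    ⟨⌈1608 * (C:ℝ) / ε⌉₊ + 1, Nat.succ_pos _,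
      by push_cast; linarith [Nat.le_ceil (1608 * (C:ℝ) / ε)]⟩
  obtain ⟨P0, hP0⟩ := groups hT hS K hK (4 * K * C) δ hδ
  refine ⟨max P0 (2 * K), fun P hP hPP H _ _ _ Ω ι _ _ T _ _ u slot tg hu hst hcard => ?_⟩
  have : NeZero P := ⟨hP.pos.ne'⟩
  have hm : C * P ^ 2 ≤ 4 * K * C * (P * P / (2 * K)) := by
    have h0 : 2 * K ≤ P := le_trans (le_max_right _ _) hPP
    have h1 := Nat.lt_mul_div_succ (P * P) (by omega : 0 < 2 * K)
    have h2 : 1 ≤ P * P / (2 * K) :=
      (Nat.one_le_div_iff (by omega)).2 (le_trans h0 (Nat.le_mul_of_pos_left P hP.pos))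
    have h3 : P * P ≤ 4 * K * (P * P / (2 * K)) := by nlinarith
    calc C * P ^ 2 = C * (P * P) := by ring
      _ ≤ C * (4 * K * (P * P / (2 * K))) := Nat.mul_le_mul_left C h3
      _ = _ := by ring
  obtain ⟨e⟩ : Nonempty (T ↪ Fin (4 * K * C) × Fin (P * P / (2 * K))) :=
    Function.Embedding.nonempty_of_card_le (by simpa using hcard.trans hm)
  let eqv : Fin P × ZMod P ≃ Fin P × Fin P :=
    (Equiv.refl _).prodCongr (ZMod.finEquiv P).toEquiv.symm
  obtain ⟨u', X, hu', hvn, hout, hmov, hX, hXe⟩ :=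
    hP0 P hP (le_trans (le_max_left _ _) hPP) Ω u (eqv.toEmbedding.trans slot) tg e hu
      fun s t => hst _ t
  refine ⟨u', Function.extend tg X u, hu', hvn,
    fun i hi hi' => hout i (fun s => hi _) hi', ?_, fun t => ?_, ?_⟩
  · rw [← eqv.sum_comp]
    exact hmov
  · rw [tg.injective.extend_apply]
    refine ⟨(hX t).1, vn_mono ?_ (hX t).2⟩
    rintro _ ⟨s, rfl⟩
    exact ⟨eqv s, rfl⟩
  · calc ∑ t, ‖(Function.extend tg X u (tg t) - u (tg t)) Ω‖ ^ 2
        = ∑ t, ‖(X t - u (tg t)) Ω‖ ^ 2 := by simp only [tg.injective.extend_apply]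
      _ ≤ _ := hXe
      _ = 1608 * (C:ℝ) / K * (P:ℝ) ^ 2 := by push_cast; field_simp; ring
      _ ≤ _ := by
          gcongr
          rw [div_le_iff₀ (by exact_mod_cast hK)]
          have := (div_le_iff₀ hε).1 hKC
          linarith

end Vale.Agent.P086
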