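import Vale.Agent.P086.Spec
import Vale.Agent.P086.Lemmas

/-!
# Changes of free bases: automorphisms of the free group and shears

A shear multiplies some members by unitaries of the algebra of the others. A reduced word in the new
members is an alternating product of old members outside `J` and slots in the algebra of `J`; such a
product has trace zero as soon as this holds when every slot is a word, by linearity and continuity
in the vector norm, one slot at a time.
-/

noncomputable section

set_option linter.unusedSectionVars false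
set_option linter.unusedSimpArgs false

namespace Vale.Agent.P086.Move

open scoped InnerProductSpace Classical
open FreeGroup (mk of IsReduced)

universe u

variable {H : Type u} [NormedAddCommGroup H] [InnerProductSpace ℂ H] [CompleteSpace H]
variable {ι : Type} [DecidableEq ι]

/-! ### The representation of the free group -/

section Rep

variable {u : ι → H →L[ℂ] H} (hu : ∀ i, u i ∈ unitary (H →L[ℂ] H))

/-- The representation attached to a family of unitaries. -/
def uHom : FreeGroup ι →* unitary (H →L[ℂ] H) := FreeGroup.lift fun i => ⟨u i, hu i⟩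

include hu

lemma word_mk (L : List (ι × Bool)) :
    ((uHom hu (mk L) : unitary (H →L[ℂ] H)) : H →L[ℂ] H)
      = (L.map fun p => if p.2 then u p.1 else star (u p.1)).prod := by
  induction L with
  | nil => simp [uHom, FreeGroup.lift_mk]
  | cons p L ih =>
    simp only [uHom, FreeGroup.lift_mk, List.map_cons, List.prod_cons, Submonoid.coe_mul] at ih ⊢
    rw [ih]
    congr 1
    cases p.2 <;> simp [← Unitary.star_eq_inv]

lemma fgWord_eq (g : FreeGroup ι) : fgWord u g = (uHom hu g : H →L[ℂ] H) := by
  conv_rhs => rw [← FreeGroup.mk_toWord (x := g)]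
  rw [word_mk hu]
  rfl

lemma fgWord_mk (L : List (ι × Bool)) :
    fgWord u (mk L) = (L.map fun p => if p.2 then u p.1 else star (u p.1)).prod := by
  rw [fgWord_eq hu, word_mk hu]

lemma fgWord_mul (g h : FreeGroup ι) : fgWord u (g * h) = fgWord u g * fgWord u h := by
  simp only [fgWord_eq hu, map_mul, Submonoid.coe_mul]

lemma fgWord_one' : fgWord u (1 : FreeGroup ι) = 1 := by
  simp only [fgWord_eq hu, map_one, Submonoid.coe_one]

lemma fgWord_of (i : ι) : fgWord u (of i) = u i := by
  simp [fgWord, FreeGroup.toWord_of]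

lemma fgWord_inv (g : FreeGroup ι) : fgWord u g⁻¹ = star (fgWord u g) := by
  simp only [fgWord_eq hu, map_inv, ← Unitary.star_eq_inv, Unitary.coe_star]

lemma fgWord_unitary (g : FreeGroup ι) : fgWord u g ∈ unitary (H →L[ℂ] H) := by
  rw [fgWord_eq hu]
  exact (uHom hu g).2

lemma fgWord_mem {s : Set (H →L[ℂ] H)} {g : FreeGroup ι}
    (h : ∀ p ∈ g.toWord, u p.1 ∈ vn s) : fgWord u g ∈ vn s := by
  refine mem_vnSub.1 (list_prod_mem fun x hx => ?_)
  obtain ⟨p, hp, rfl⟩ := List.mem_map.1 hx
  split_ifs
  · exact mem_vnSub.2 (h p hp)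
  · exact mem_vnSub.2 (vn_star (h p hp))

end Rep

/-- Elements written in the letters of `J`. -/
def InJ (J : Set ι) (g : FreeGroup ι) : Prop := ∀ p ∈ g.toWord, p.1 ∈ J

lemma InJ.one (J : Set ι) : InJ J (1 : FreeGroup ι) := by simp [InJ]

lemma InJ.mul {J : Set ι} {g h : FreeGroup ι} (hg : InJ J g) (hh : InJ J h) : InJ J (g * h) :=
  fun p hp => (List.mem_append.1 ((FreeGroup.toWord_mul_sublist g h).subset hp)).elim (hg p) (hh p)

lemma InJ.inv {J : Set ι} {g : FreeGroup ι} (hg : InJ J g) : InJ J g⁻¹ := by
  intro p hp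
  rw [FreeGroup.toWord_inv, FreeGroup.invRev, List.mem_reverse, List.mem_map] at hp
  obtain ⟨q, hq, rfl⟩ := hp
  exact hg q hq

lemma adjoin_le_span {u : ι → H →L[ℂ] H} (hu : ∀ i, u i ∈ unitary (H →L[ℂ] H)) (J : Set ι)
    {a : H →L[ℂ] H} (ha : a ∈ StarAlgebra.adjoin ℂ (u '' J)) :
    a ∈ Submodule.span ℂ (fgWord u '' {h | InJ J h}) := by
  induction ha using StarAlgebra.adjoin_induction with
  | mem x hx =>
    obtain ⟨j, hj, rfl⟩ := hx
    exact Submodule.subset_span ⟨of j, by simp [InJ, FreeGroup.toWord_of, hj], fgWord_of hu j⟩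
  | algebraMap r =>
    rw [Algebra.algebraMap_eq_smul_one]
    exact Submodule.smul_mem _ _ (Submodule.subset_span ⟨1, InJ.one J, fgWord_one' hu⟩)
  | add x y _ _ hx hy => exact add_mem hx hy
  | mul x y hx' hy' hx hy =>
    clear hx' hy'
    induction hx using Submodule.span_induction with
    | mem x hx =>
      induction hy using Submodule.span_induction with
      | mem y hy =>
        obtain ⟨g, hg, rfl⟩ := hx
        obtain ⟨h, hh, rfl⟩ := hy
        exact Submodule.subset_span ⟨g * h, hg.mul hh, fgWord_mul hu g h⟩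
      | zero => simp
      | add y z _ _ h1 h2 => rw [mul_add]; exact add_mem h1 h2
      | smul c y _ h1 => rw [mul_smul_comm]; exact Submodule.smul_mem _ _ h1
    | zero => simp
    | add y z _ _ h1 h2 => rw [add_mul]; exact add_mem h1 h2
    | smul c y _ h1 => rw [smul_mul_assoc]; exact Submodule.smul_mem _ _ h1
  | star x hx' hx =>
    clear hx'
    induction hx using Submodule.span_induction with
    | mem x hx =>
      obtain ⟨g, hg, rfl⟩ := hx
      exact Submodule.subset_span ⟨g⁻¹, hg.inv, fgWord_inv hu g⟩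
    | zero => simp
    | add y z _ _ h1 h2 => rw [star_add]; exact add_mem h1 h2
    | smul c y _ h1 => rw [star_smul]; exact Submodule.smul_mem _ _ h1

/-! ### Alternating products -/

/-- A fixed group element, whether the slot is centred, and the slot. -/
abbrev Slot (ι : Type) (H : Type u) [NormedAddCommGroup H] [InnerProductSpace ℂ H]
    [CompleteSpace H] : Type u :=
  FreeGroup ι × Bool × (H →L[ℂ] H)

/-- No choice of words for the slots gives the unit. -/
def NE (J : Set ι) : FreeGroup ι → List (Slot ι H) → Prop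
  | g, [] => g ≠ 1
  | g, (s, c, _) :: r => ∀ h, InJ J h → (c = true → h ≠ 1) → NE J (g * s * h) r

/-- The alternating product. -/
def prodOf (u : ι → H →L[ℂ] H) : List (Slot ι H) → (H →L[ℂ] H)
  | [] => 1
  | (s, _, X) :: r => fgWord u s * (X * prodOf u r)

variable {Ω : H} {u : ι → H →L[ℂ] H} {J : Set ι}

lemma norm_tr_mul (Ω : H) (B a : H →L[ℂ] H) : ‖tr Ω (B * a)‖ ≤ ‖star B Ω‖ * ‖a Ω‖ := by
  rw [tr, mul_apply_eq_comp, ← ContinuousLinearMap.adjoint_inner_left,
    ← ContinuousLinearMap.star_eq_adjoint]
  exact norm_inner_le_norm _ _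

/-- Zero on the words, hence zero on the generated algebra, slot by slot. -/
theorem tr_slots (hb : IsBasis Ω u)
    (htr : ∀ a ∈ vn (Set.range u), ∀ b ∈ vn (Set.range u), tr Ω (a * b) = tr Ω (b * a))
    (happ : ∀ a ∈ vn (u '' J), ∀ ε : ℝ, 0 < ε →
      ∃ b ∈ StarAlgebra.adjoin ℂ (u '' J), ‖(a - b) Ω‖ ≤ ε) :
    ∀ (l : List (Slot ι H)) (g : FreeGroup ι),
      (∀ x ∈ l, x.2.2 ∈ vn (u '' J) ∧ (x.2.1 = true → tr Ω x.2.2 = 0)) → NE J g l →
      tr Ω (fgWord u g * prodOf u l) = 0 := by
  intro l
  induction l with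
  | nil =>
    intro g _ hg
    simp only [NE] at hg
    simp [prodOf, hb.free g, hg]
  | cons x r ih =>
    obtain ⟨s, c, X⟩ := x
    intro g hx hne
    have hJM : vn (u '' J) ⊆ vn (Set.range u) := vn_mono (Set.image_subset_range u J)
    have hF : ∀ k : FreeGroup ι, fgWord u k ∈ vn (Set.range u) := fun k =>
      fgWord_mem hb.mem fun p _ => subset_vn _ ⟨p.1, rfl⟩
    have hP : prodOf u r ∈ vn (Set.range u) := by
      have hr : ∀ x ∈ r, x.2.2 ∈ vn (u '' J) := fun x h => (hx x (List.mem_cons_of_mem _ h)).1
      clear ih hne hx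
      induction r with
      | nil => exact vn_one
      | cons y r ihr =>
        obtain ⟨t, d, Y⟩ := y
        exact vn_mul (hF t) (vn_mul (hJM (hr _ List.mem_cons_self))
          (ihr fun x h => hr x (List.mem_cons_of_mem _ h)))
    obtain ⟨hX, hXc⟩ := hx (s, c, X) List.mem_cons_self
    simp only [NE] at hne
    set B := prodOf u r * (fgWord u g * fgWord u s) with hB
    set φ : (H →L[ℂ] H) → ℂ := fun a => tr Ω (fgWord u g * (fgWord u s * (a * prodOf u r))) with hφ
    set k : ℂ := if c = true then φ 1 else 0 with hk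
    set ψ : (H →L[ℂ] H) → ℂ := fun a => φ a - k * tr Ω a with hψ
    have hadd : ∀ a b, ψ (a + b) = ψ a + ψ b := by
      intro a b
      simp only [hψ, hφ, add_mul, mul_add, tr_add]
      ring
    have hsmul : ∀ (z : ℂ) a, ψ (z • a) = z * ψ a := by
      intro z a
      simp only [hψ, hφ, smul_mul_assoc, mul_smul_comm, tr_smul]
      ring
    have hword : ∀ h, InJ J h → ψ (fgWord u h) = 0 := by
      intro h hh
      have h0 : (c = true → h ≠ 1) → φ (fgWord u h) = 0 := fun hc => by
        simp only [hφ]
        rw [← mul_assoc, ← mul_assoc, ← fgWord_mul hb.mem, ← fgWord_mul hb.mem]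
        exact ih _ (fun x h' => hx x (List.mem_cons_of_mem _ h')) (hne h hh hc)
      simp only [hψ, hk]
      by_cases hh1 : h = 1
      · subst hh1
        rw [hb.free, if_pos rfl, mul_one, fgWord_one' hb.mem]
        split_ifs with hc
        · exact sub_self _
        · rw [sub_zero, ← fgWord_one' (u := u) hb.mem]
          exact h0 fun h => absurd h hc
      · rw [hb.free, if_neg hh1, mul_zero, sub_zero]
        exact h0 fun _ => hh1
    have hspan : ∀ a ∈ Submodule.span ℂ (fgWord u '' {h | InJ J h}), ψ a = 0 := by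
      intro a ha
      induction ha using Submodule.span_induction with
      | mem a ha => obtain ⟨h, hh, rfl⟩ := ha; exact hword h hh
      | zero => simpa using hsmul 0 0
      | add a b _ _ h1 h2 => rw [hadd, h1, h2, add_zero]
      | smul z a _ h1 => rw [hsmul, h1, mul_zero]
    have hψX : ψ X = 0 := by
      refine norm_eq_zero.1 (le_antisymm (le_of_forall_pos_le_add fun ε hε => ?_) (norm_nonneg _))
      set C : ℝ := ‖star B Ω‖ + ‖k‖ + 1
      have hC : 0 < C := by positivity
      obtain ⟨b, hbJ, hbd⟩ := happ X hX (ε / C) (by positivity)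
      have hd : X - b ∈ vn (Set.range u) := hJM (vn_sub hX (adjoin_subset_vn _ hbJ))
      have he : ψ X = ψ (X - b) := by
        have h1 := hadd (X - b) b
        rwa [sub_add_cancel, hspan b (adjoin_le_span hb.mem J hbJ), add_zero] at h1
      have hcyc : φ (X - b) = tr Ω (B * (X - b)) := by
        simp only [hφ, hB]
        rw [← mul_assoc, ← mul_assoc, htr _ (vn_mul (vn_mul (hF g) (hF s)) hd) _ hP]
        simp only [mul_assoc]
      rw [zero_add, he]
      simp only [hψ]
      calc ‖φ (X - b) - k * tr Ω (X - b)‖ ≤ ‖φ (X - b)‖ + ‖k * tr Ω (X - b)‖ := norm_sub_le _ _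
        _ ≤ ‖star B Ω‖ * ‖(X - b) Ω‖ + ‖k‖ * ‖(X - b) Ω‖ := by
          rw [hcyc, norm_mul]
          exact add_le_add (norm_tr_mul _ _ _)
            (mul_le_mul_of_nonneg_left (norm_tr_le Ω hb.unit _) (norm_nonneg _))
        _ ≤ C * (ε / C) := by
          rw [← add_mul]
          exact mul_le_mul (by simp [C]) hbd (norm_nonneg _) hC.le
        _ = ε := by field_simp
    have hkX : k * tr Ω X = 0 := by
      simp only [hk]
      split_ifs with hc
      · rw [hXc hc, mul_zero]
      · rw [zero_mul]
    simp only [hψ, hkX, sub_zero] at hψX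
    exact hψX

/-! ### Reading a word in the new members as an alternating product -/

/-- The first letter outside `J`. -/
def nxt (J : Set ι) (L : List (ι × Bool)) : Option (ι × Bool) :=
  (L.dropWhile fun q => decide (q.1 ∈ J)).head?

/-- What a new letter puts in front of the old one. -/
def post (gs : ι → H →L[ℂ] H) (p : ι × Bool) : H →L[ℂ] H := if p.2 then 1 else star (gs p.1)

/-- What a new letter puts after the old one. -/
def pre (gs : ι → H →L[ℂ] H) (p : ι × Bool) : H →L[ℂ] H := if p.2 then gs p.1 else 1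

/-- A new letter. -/
def vLet (u gs : ι → H →L[ℂ] H) (p : ι × Bool) : H →L[ℂ] H :=
  if p.2 then u p.1 * gs p.1 else star (u p.1 * gs p.1)

/-- The first slot and the following ones. -/
def parse (J : Set ι) (u gs : ι → H →L[ℂ] H) :
    List (ι × Bool) → (H →L[ℂ] H) × List (Slot ι H)
  | [] => (1, [])
  | p :: L =>
    if p.1 ∈ J then (fgWord u (mk [p]) * (parse J u gs L).1, (parse J u gs L).2)
    else (post gs p, (mk [p], decide (nxt J L = some (p.1, !p.2)), pre gs p * (parse J u gs L).1) ::
      (parse J u gs L).2)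

variable {gs : ι → H →L[ℂ] H}

lemma vLet_eq (hu : ∀ i, u i ∈ unitary (H →L[ℂ] H)) (p : ι × Bool) :
    vLet u gs p = post gs p * (fgWord u (mk [p]) * pre gs p) := by
  rw [fgWord_mk hu]
  obtain ⟨i, b⟩ := p
  cases b <;> simp [vLet, post, pre, star_mul]

lemma parse_prod (hu : ∀ i, u i ∈ unitary (H →L[ℂ] H)) (hJ : ∀ i ∈ J, gs i = 1) :
    ∀ L, (L.map (vLet u gs)).prod = (parse J u gs L).1 * prodOf u (parse J u gs L).2
  | [] => by simp [parse, prodOf]
  | p :: L => by
    rw [List.map_cons, List.prod_cons, parse_prod hu hJ L]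
    by_cases hp : p.1 ∈ J
    · have he : vLet u gs p = fgWord u (mk [p]) := by
        rw [vLet_eq hu]
        simp [post, pre, hJ _ hp]
      simp only [parse, if_pos hp, he, mul_assoc]
    · simp only [parse, if_neg hp, prodOf, vLet_eq hu, mul_assoc]

lemma parse_fst (hu : ∀ i, u i ∈ unitary (H →L[ℂ] H)) :
    ∀ L, (parse J u gs L).1 =
      fgWord u (mk (L.takeWhile fun q => decide (q.1 ∈ J))) * ((nxt J L).elim 1 (post gs))
  | [] => by simp [parse, nxt, fgWord_mk hu]
  | p :: L => by
    by_cases hp : p.1 ∈ J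
    · have h := parse_fst hu L
      simp only [parse, if_pos hp, h, nxt, List.takeWhile_cons, List.dropWhile_cons, decide_eq_true hp,
        if_true, fgWord_mk hu, List.map_cons, List.map_nil, List.prod_cons, List.prod_nil, mul_one,
        mul_assoc]
    · simp [parse, hp, nxt, List.takeWhile_cons, List.dropWhile_cons, fgWord_mk hu]

lemma parse_fst_mem (hu : ∀ i, u i ∈ unitary (H →L[ℂ] H)) (hg : ∀ i, gs i ∈ vn (u '' J))
    (L : List (ι × Bool)) : (parse J u gs L).1 ∈ vn (u '' J) := by
  rw [parse_fst hu]
  refine vn_mul ?_ ?_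
  · rw [fgWord_mk hu]
    refine mem_vnSub.1 (list_prod_mem fun x hx => ?_)
    obtain ⟨q, hq, rfl⟩ := List.mem_map.1 hx
    have hqJ : q.1 ∈ J := by simpa using List.mem_takeWhile_imp hq
    split_ifs
    · exact mem_vnSub.2 (subset_vn _ ⟨_, hqJ, rfl⟩)
    · exact mem_vnSub.2 (vn_star (subset_vn _ ⟨_, hqJ, rfl⟩))
  · cases nxt J L with
    | none => exact vn_one
    | some q =>
      simp only [Option.elim, post]
      split_ifs
      · exact vn_one
      · exact vn_star (hg _)

lemma nxt_not_mem {L : List (ι × Bool)} {q : ι × Bool} (h : nxt J L = some q) : q.1 ∉ J := by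
  induction L with
  | nil => simp [nxt] at h
  | cons p L ih =>
    by_cases hp : p.1 ∈ J
    · exact ih (by simpa [nxt, List.dropWhile_cons, hp] using h)
    · simp [nxt, List.dropWhile_cons, hp] at h
      rwa [← h]

lemma parse_slots (hb : IsBasis Ω u)
    (htr : ∀ a ∈ vn (Set.range u), ∀ b ∈ vn (Set.range u), tr Ω (a * b) = tr Ω (b * a))
    (hg : ∀ i, gs i ∈ unitary (H →L[ℂ] H) ∧ gs i ∈ vn (u '' J)) :
    ∀ L, IsReduced L → ∀ x ∈ (parse J u gs L).2,
      x.2.2 ∈ vn (u '' J) ∧ (x.2.1 = true → tr Ω x.2.2 = 0) := by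
  intro L
  induction L with
  | nil => simp [parse]
  | cons p L ih =>
    intro hred x hx
    have hredL : IsReduced L := (List.isChain_cons.1 hred).2
    by_cases hp : p.1 ∈ J
    · simp only [parse, if_pos hp] at hx
      exact ih hredL x hx
    simp only [parse, if_neg hp, List.mem_cons] at hx
    rcases hx with rfl | hx
    swap
    · exact ih hredL x hx
    have hpre : pre gs p ∈ vn (u '' J) := by
      simp only [pre]
      split_ifs
      exacts [(hg _).2, vn_one]
    refine ⟨vn_mul hpre (parse_fst_mem hb.mem (fun i => (hg i).2) L), fun hc => ?_⟩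
    simp only [decide_eq_true_eq] at hc
    simp only [parse_fst hb.mem, hc, Option.elim]
    set Bl := L.takeWhile fun q => decide (q.1 ∈ J) with hBl
    have hne : Bl ≠ [] := by
      intro h0
      cases L with
      | nil => simp [nxt] at hc
      | cons q L =>
        have hq : q.1 ∉ J := fun hq => by simp [hBl, List.takeWhile_cons, hq] at h0
        simp [nxt, List.dropWhile_cons, hq] at hc
        subst hc
        exact absurd ((FreeGroup.isReduced_cons_cons.1 hred).1 rfl) (by cases p.2 <;> simp)
    have h0 : tr Ω (fgWord u (mk Bl)) = 0 := by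
      rw [hb.free, if_neg]
      intro h1
      have hr : IsReduced Bl := List.IsChain.left_of_append (l₂ := L.dropWhile fun q => decide (q.1 ∈ J)) (by rw [hBl, List.takeWhile_append_dropWhile]; exact hredL)
      have h2 := congrArg FreeGroup.toWord h1
      rw [FreeGroup.toWord_mk, hr.reduce_eq, FreeGroup.toWord_one] at h2
      exact hne h2
    have hJM : vn (u '' J) ⊆ vn (Set.range u) := vn_mono (Set.image_subset_range u J)
    have hF : fgWord u (mk Bl) ∈ vn (Set.range u) :=
      fgWord_mem hb.mem fun q _ => subset_vn _ ⟨q.1, rfl⟩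
    obtain ⟨i, b⟩ := p
    cases b
    · simpa [pre, post] using h0
    · simp only [pre, post, if_true, Bool.not_true, Bool.false_eq_true, if_false]
      rw [← mul_assoc, htr _ (vn_mul (hJM (hg i).2) hF) _ (vn_star (hJM (hg i).2)), ← mul_assoc,
        Unitary.star_mul_self_of_mem (hg i).1, one_mul]
      exact h0

lemma parse_ne (u gs : ι → H →L[ℂ] H) : ∀ (L W : List (ι × Bool)), IsReduced W →
    (W ≠ [] ∨ nxt J L ≠ none) → (∀ q, nxt J L = some q → IsReduced (W ++ [q])) →
    NE J (mk W) (parse J u gs L).2 := by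
  intro L
  induction L with
  | nil =>
    intro W hW hne _
    simp only [parse, NE]
    intro h
    have h2 := congrArg FreeGroup.toWord h
    rw [FreeGroup.toWord_mk, hW.reduce_eq, FreeGroup.toWord_one] at h2
    simp [nxt] at hne
    exact hne h2
  | cons p L ih =>
    intro W hW hne hq
    by_cases hp : p.1 ∈ J
    · simp only [parse, if_pos hp]
      have hn : nxt J (p :: L) = nxt J L := by simp [nxt, List.dropWhile_cons, hp]
      rw [hn] at hne hq
      exact ih W hW hne hq
    simp only [parse, if_neg hp, NE]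
    intro h hh hc
    have hn : nxt J (p :: L) = some p := by simp [nxt, List.dropWhile_cons, hp]
    have hWp : IsReduced (W ++ [p]) := hq p hn
    have e : mk W * mk [p] * h = mk (W ++ [p] ++ h.toWord) := by
      conv_lhs => rw [← FreeGroup.mk_toWord (x := h)]
      rw [FreeGroup.mul_mk, FreeGroup.mul_mk]
    have hw : IsReduced (W ++ [p] ++ h.toWord) := by
      refine List.isChain_append.2 ⟨hWp, FreeGroup.isReduced_toWord, ?_⟩
      intro a ha b hb heq
      simp at ha
      subst ha
      exact absurd (hh b (List.mem_of_mem_head? hb)) (heq ▸ hp)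
    rw [e]
    refine ih _ hw (Or.inl (by simp)) fun q hnq => ?_
    refine List.isChain_append.2 ⟨hw, List.isChain_singleton q, ?_⟩
    intro a ha b hb heq
    simp at hb
    subst hb
    rcases List.eq_nil_or_concat h.toWord with h0 | ⟨l, z, h0⟩
    · simp [h0] at ha
      subst ha
      by_contra hbool
      refine hc (decide_eq_true ?_) (FreeGroup.toWord_eq_nil_iff.1 h0)
      rw [hnq]
      obtain ⟨i, b⟩ := p
      obtain ⟨j, b'⟩ := q
      simp only at heq hbool
      subst heq
      cases b <;> cases b' <;> simp_all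
    · simp only [h0, List.concat_eq_append, ← List.append_assoc, List.getLast?_concat, Option.mem_def,
        Option.some_inj] at ha
      subst ha
      exact absurd (hh z (by simp [h0, List.concat_eq_append])) (heq ▸ nxt_not_mem hnq)

/-- A shear keeps the moments of a free basis. -/
theorem shear_free (hb : IsBasis Ω u)
    (htr : ∀ a ∈ vn (Set.range u), ∀ b ∈ vn (Set.range u), tr Ω (a * b) = tr Ω (b * a))
    (happ : ∀ a ∈ vn (u '' J), ∀ ε : ℝ, 0 < ε →
      ∃ b ∈ StarAlgebra.adjoin ℂ (u '' J), ‖(a - b) Ω‖ ≤ ε)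
    (hJ : ∀ i ∈ J, gs i = 1) (hg : ∀ i, gs i ∈ unitary (H →L[ℂ] H) ∧ gs i ∈ vn (u '' J))
    (w : FreeGroup ι) (hw : w ≠ 1) : tr Ω (fgWord (fun i => u i * gs i) w) = 0 := by
  set L := w.toWord with hL
  have hred : IsReduced L := FreeGroup.isReduced_toWord
  have e : fgWord (fun i => u i * gs i) w = (L.map (vLet u gs)).prod := rfl
  rw [e, parse_prod hb.mem hJ]
  cases hn : nxt J L with
  | none =>
    have hall : ∀ M : List (ι × Bool), nxt J M = none →
        (parse J u gs M).1 = fgWord u (mk M) ∧ (parse J u gs M).2 = [] := by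
      intro M
      induction M with
      | nil => simp [parse, fgWord_mk hb.mem]
      | cons p M ih =>
        intro h
        by_cases hp : p.1 ∈ J
        · obtain ⟨h1, h2⟩ := ih (by simpa [nxt, List.dropWhile_cons, hp] using h)
          refine ⟨?_, by simp [parse, hp, h2]⟩
          simp [parse, hp, h1, fgWord_mk hb.mem]
        · simp [nxt, List.dropWhile_cons, hp] at h
    rw [(hall L hn).1, (hall L hn).2, prodOf, mul_one, hL, FreeGroup.mk_toWord, hb.free, if_neg hw]
  | some p =>
    have hs := tr_slots hb htr happ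
      (((1 : FreeGroup ι), false, (parse J u gs L).1) :: (parse J u gs L).2) 1 ?_ ?_
    · simpa [prodOf, fgWord_one' hb.mem] using hs
    · intro x hx
      rcases List.mem_cons.1 hx with rfl | hx
      · exact ⟨parse_fst_mem hb.mem (fun i => (hg i).2) L, fun h => by simp at h⟩
      · exact parse_slots hb htr hg L hred x hx
    · simp only [NE, one_mul]
      intro h hh _
      rw [← FreeGroup.mk_toWord (x := h)]
      refine parse_ne u gs L _ FreeGroup.isReduced_toWord (Or.inr (by simp [hn])) fun q hq => ?_
      refine List.isChain_append.2 ⟨FreeGroup.isReduced_toWord, List.isChain_singleton q, ?_⟩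
      intro a ha b hb' heq
      simp at hb'
      subst hb'
      exact absurd (hh a (List.mem_of_mem_getLast? ha)) (heq ▸ nxt_not_mem hq)

/-- Automorphisms of the free group and shears send bases to bases. -/
theorem moveGoal (hOps : OpsGoal.{u}) (hTrace : TraceGoal.{u}) : MoveGoal.{u} := by
  intro H _ _ _ Ω ι _ _ u hb
  have htr := hTrace.2 Ω u hb
  obtain ⟨-, -, -, -, -, happ⟩ := hOps Ω (Set.range u) hb.cyclic htr
  refine ⟨fun φ => ?_, fun J g hJ hg => ?_⟩
  · set v : ι → H →L[ℂ] H := fun i => fgWord u (φ (of i)) with hv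
    have hvm : ∀ i, v i ∈ unitary (H →L[ℂ] H) := fun i => fgWord_unitary hb.mem _
    have hcomp : uHom hvm = (uHom hb.mem).comp φ.toMonoidHom := by
      refine FreeGroup.ext_hom _ _ fun i => Subtype.ext ?_
      simp [uHom, hv, fgWord_eq hb.mem]
    have hw : ∀ g, fgWord v g = fgWord u (φ g) := fun g => by
      rw [fgWord_eq hvm, fgWord_eq hb.mem, hcomp]
      rfl
    have heq : vn (Set.range v) = vn (Set.range u) := by
      refine Set.Subset.antisymm (vn_le ?_) (vn_le ?_)
      · rintro x ⟨i, rfl⟩
        exact fgWord_mem hb.mem fun p _ => subset_vn _ ⟨p.1, rfl⟩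
      · rintro x ⟨i, rfl⟩
        have h : fgWord v (φ.symm (of i)) = u i := by
          rw [hw, MulEquiv.apply_symm_apply, fgWord_of hb.mem]
        rw [← h]
        exact fgWord_mem hvm fun p _ => subset_vn _ ⟨p.1, rfl⟩
    refine ⟨⟨hb.unit, hvm, fun g => ?_, ?_⟩, heq⟩
    · rw [hw, hb.free]
      simp
    · rw [heq]; exact hb.cyclic
  · set v : ι → H →L[ℂ] H := fun i => u i * g i with hv
    have hJsub : u '' J ⊆ Set.range v := by
      rintro x ⟨j, hj, rfl⟩
      exact ⟨j, by simp [hv, hJ j hj]⟩
    have hgv : ∀ i, g i ∈ vn (Set.range v) := fun i => vn_mono hJsub (hg i).2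
    have heq : vn (Set.range v) = vn (Set.range u) := by
      refine Set.Subset.antisymm (vn_le ?_) (vn_le ?_)
      · rintro x ⟨i, rfl⟩
        exact vn_mul (subset_vn _ ⟨i, rfl⟩) (vn_mono (Set.image_subset_range u J) (hg i).2)
      · rintro x ⟨i, rfl⟩
        have h : u i = v i * star (g i) := by
          simp [hv, mul_assoc, Unitary.mul_star_self_of_mem (hg i).1]
        rw [h]
        exact vn_mul (subset_vn _ ⟨i, rfl⟩) (vn_star (hgv i))
    refine ⟨⟨hb.unit, fun i => mul_mem (hb.mem i) (hg i).1, fun w => ?_, ?_⟩, heq⟩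
    · by_cases hw : w = 1
      · subst hw
        rw [if_pos rfl, fgWord, FreeGroup.toWord_one, List.map_nil, List.prod_nil, tr,
          one_apply_eq_self, inner_self_eq_norm_sq_to_K, hb.unit]
        simp
      · rw [if_neg hw]
        exact shear_free hb htr (happ (u '' J)
          (fun x hx => vn_mono (Set.image_subset_range u J) (subset_vn _ hx))) hJ hg w hw
    · rw [heq]; exact hb.cyclic

end Vale.Agent.P086.Move
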