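import Vale.Agent.P086.Encode.StageLine

/-!
# One stage of the encoding

The lines are treated one after another. The phase of a line is chosen so that the weighted sum of
the gaps `1 - Re ⟪x, y⟫` of the finished products and of all slots grows by at most its mean.
-/

noncomputable section

namespace Vale.Agent.P086.StageLine

open scoped InnerProductSpace BigOperators

universe u

variable {H : Type u} [NormedAddCommGroup H] [InnerProductSpace ℂ H] [CompleteSpace H]
variable {Ω : H} {ι : Type} [Fintype ι] [DecidableEq ι]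

/-- The gap of two unitaries. -/
def gap (Ω : H) (x y : H →L[ℂ] H) : ℝ := 1 - (tr Ω (star x * y)).re

theorem re_tr_le (hΩ : ‖Ω‖ = 1) {x : H →L[ℂ] H} (hx : x ∈ unitary (H →L[ℂ] H)) :
    (tr Ω x).re ≤ 1 := by
  refine (Complex.re_le_norm _).trans ((norm_tr_le Ω hΩ x).trans ?_)
  rw [unitary_norm_apply hx, hΩ]

theorem gap_nonneg (hΩ : ‖Ω‖ = 1) {x y : H →L[ℂ] H} (hx : x ∈ unitary (H →L[ℂ] H))
    (hy : y ∈ unitary (H →L[ℂ] H)) : 0 ≤ gap Ω x y := by
  have := re_tr_le hΩ (mul_mem (Unitary.star_mem hx) hy)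
  rw [gap]
  linarith

theorem gap_self (hΩ : ‖Ω‖ = 1) {x : H →L[ℂ] H} (hx : x ∈ unitary (H →L[ℂ] H)) :
    gap Ω x x = 0 := by
  rw [gap, star_mul_self' hx]
  simp [tr, inner_self_eq_norm_sq_to_K, hΩ]

theorem sq_norm_sub (hΩ : ‖Ω‖ = 1) {x y : H →L[ℂ] H} (hx : x ∈ unitary (H →L[ℂ] H))
    (hy : y ∈ unitary (H →L[ℂ] H)) : ‖(y - x) Ω‖ ^ 2 = 2 * gap Ω x y := by
  have e : (tr Ω (star x * y)) = ⟪x Ω, y Ω⟫_ℂ := by
    rw [tr, mul_apply_eq_comp, ContinuousLinearMap.star_eq_adjoint,
      ContinuousLinearMap.adjoint_inner_right]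
  rw [sub_apply, @norm_sub_sq ℂ, unitary_norm_apply hx, unitary_norm_apply hy, hΩ, gap, e,
    ← inner_conj_symm (y Ω), RCLike.conj_re, RCLike.re_to_complex]
  ring

/-- All phases of one line. -/
theorem exists_line (hM : MoveGoal.{u}) (hT : TraceGoal.{u}) (L : ℕ) (hL : 3 ≤ L) :
    ∃ (q : ℕ) (_ : NeZero q), ∀ {u : ι → H →L[ℂ] H}, IsBasis Ω u → ∀ (ll : List ι),
      ll.length = L → ll.Nodup → ∀ i₀, i₀ ∉ ll → ∃ (v : ZMod q → ι → H →L[ℂ] H) (γ : ZMod q → ℂ),
        (∀ k, IsBasis Ω (v k) ∧ vn (Set.range (v k)) = vn (Set.range u) ∧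
          (∀ i, i ∉ ll → i ≠ i₀ → v k i = u i) ∧ ‖γ k‖ = 1 ∧ wprod (v k) ll = γ k • u i₀) ∧
        ∀ e ∈ ll, ∀ C ∈ vn (Set.range u), C ∈ unitary (H →L[ℂ] H) →
          (q : ℝ) * ((tr Ω (C * u e)).re - 10 / (L : ℝ) ^ 2) ≤ ∑ k, (tr Ω (C * v k e)).re := by
  have hL0 : (0 : ℝ) < L := by exact_mod_cast (by omega : 0 < L)
  obtain ⟨q, hq, c, hc1, hc2, hph⟩ :=
    phases (H := H) (Ω := Ω) L (by omega) (θ := 1 / (L : ℝ) ^ 2) (by positivity)
  refine ⟨q, hq, fun {u} hu ll hlen hnd i₀ htg => ?_⟩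
  obtain ⟨e₀, rest, rfl⟩ : ∃ e₀ rest, ll = e₀ :: rest := by
    cases ll with
    | nil => simp at hlen; omega
    | cons a r => exact ⟨a, r, rfl⟩
  have hlen' : rest.length + 1 = L := by simpa using hlen
  have hPu : wprod u (e₀ :: rest) ∈ unitary (H →L[ℂ] H) := wprod_unitary _ fun i _ => hu.mem i
  set D := star (wprod u (e₀ :: rest)) * u i₀ with hD
  have hDu : D ∈ unitary (H →L[ℂ] H) := mul_mem (Unitary.star_mem hPu) (hu.mem i₀)
  have hDv : D ∈ vn (Set.range u) :=
    vn_mul (vn_star (vn_wprod _ fun i _ => subset_vn _ ⟨i, rfl⟩)) (subset_vn _ ⟨i₀, rfl⟩)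
  obtain ⟨w, hw, hmean, herr⟩ := hph D hDu hu.unit fun m hm => quot_haar hu _ htg m hm
  have hb := fun k : ZMod q => base hM hT hu e₀ rest hnd i₀ htg (hw k).1 (hw k).2
    (γ := ZMod.stdAddChar k) (AddChar.norm_apply _ k)
  choose v hv hvn hoff hprod hmove using hb
  refine ⟨v, fun k => ZMod.stdAddChar k, fun k =>
    ⟨hv k, hvn k, hoff k, AddChar.norm_apply _ k, hprod k⟩, fun e he C hC hCu => ?_⟩
  have htr := hT.2 Ω u hu
  have hwv : ∀ k, w k ∈ vn (Set.range u) := fun k =>
    vn_le (Set.singleton_subset_iff.2 hDv) (hw k).2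
  set R := wprod u (after e (e₀ :: rest)) with hRdef
  have hRu : R ∈ unitary (H →L[ℂ] H) := wprod_unitary _ fun i _ => hu.mem i
  have hRv : R ∈ vn (Set.range u) := vn_wprod _ fun i _ => subset_vn _ ⟨i, rfl⟩
  have hR : ∀ k, ‖(v k e - u e * (R * w k * star R)) Ω‖ ≤ 1 / (L : ℝ) ^ 2 := fun k => by
    refine (hmove k e he).trans ?_
    rw [hlen']
    exact herr k
  set X := star R * C * u e * R with hX
  have hXu : X ∈ unitary (H →L[ℂ] H) :=
    mul_mem (mul_mem (mul_mem (Unitary.star_mem hRu) hCu) (hu.mem e)) hRu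
  have hCe : C * u e ∈ vn (Set.range u) := vn_mul hC (subset_vn _ ⟨e, rfl⟩)
  have hcyc : ∀ k, tr Ω (C * (u e * (R * w k * star R))) = tr Ω (X * w k) := fun k => by
    rw [show C * (u e * (R * w k * star R)) = C * u e * R * w k * star R by simp only [mul_assoc],
      htr _ (vn_mul (vn_mul hCe hRv) (hwv k)) _ (vn_star hRv), hX]
    simp only [mul_assoc]
  have hCX : tr Ω X = tr Ω (C * u e) := by
    rw [hX, show star R * C * u e * R = star R * (C * u e * R) by simp only [mul_assoc],
      htr _ (vn_star hRv) _ (vn_mul hCe hRv), mul_assoc _ R, mul_star_self' hRu, mul_one]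
  have hk : ∀ k, (tr Ω (X * w k)).re - 1 / (L : ℝ) ^ 2 ≤ (tr Ω (C * v k e)).re := fun k => by
    have e1 : tr Ω (C * (v k e - u e * (R * w k * star R))) = tr Ω (C * v k e) - tr Ω (X * w k) := by
      rw [← hcyc, tr, tr, tr, ← inner_sub_right, mul_sub, sub_apply]
    have h2 : ‖tr Ω (C * (v k e - u e * (R * w k * star R)))‖ ≤ 1 / (L : ℝ) ^ 2 := by
      refine (norm_tr_le Ω hu.unit _).trans ?_
      rw [mul_apply_eq_comp, unitary_norm_apply hCu]
      exact hR k
    have h3 := (Complex.re_le_norm _).trans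
      ((norm_neg _).trans_le h2 : ‖-tr Ω (C * (v k e - u e * (R * w k * star R)))‖ ≤ _)
    rw [Complex.neg_re, e1, Complex.sub_re] at h3
    linarith
  have hsum : (q : ℝ) * ((tr Ω X).re - 9 / (L : ℝ) ^ 2) ≤ ∑ k, (tr Ω (X * w k)).re := by
    set T := (q : ℂ)⁻¹ • ∑ k, w k - (c : ℂ) • 1 with hTdef
    have e1 : tr Ω (X * T) = (q : ℂ)⁻¹ * ∑ k, tr Ω (X * w k) - (c : ℂ) * tr Ω X := by
      rw [hTdef, mul_sub, mul_smul_comm, mul_smul_comm, mul_one, Finset.mul_sum]
      simp [tr, inner_sub_right, inner_smul_right, inner_sum]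
    have h1 : ‖tr Ω (X * T)‖ ≤ 1 / (L : ℝ) ^ 2 := by
      refine (norm_tr_le Ω hu.unit _).trans ?_
      rw [mul_apply_eq_comp, unitary_norm_apply hXu]
      exact (norm_apply_le Ω hu.unit T).trans hmean
    have h2 := (Complex.re_le_norm _).trans ((norm_neg _).trans_le h1 : ‖-tr Ω (X * T)‖ ≤ _)
    rw [Complex.neg_re, e1, Complex.sub_re, Complex.re_ofReal_mul, ← Complex.ofReal_natCast,
      ← Complex.ofReal_inv, Complex.re_ofReal_mul, Complex.re_sum] at h2
    have h3 : (tr Ω X).re - 8 / (L : ℝ) ^ 2 ≤ c * (tr Ω X).re := by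
      have h4 := re_tr_le hu.unit hXu
      have h5 : 0 ≤ 8 / (L : ℝ) ^ 2 := by positivity
      nlinarith
    have hq0 : (0 : ℝ) < q := Nat.cast_pos.2 (Nat.pos_of_ne_zero hq.out)
    have e9 : 9 / (L : ℝ) ^ 2 = 8 / (L : ℝ) ^ 2 + 1 / (L : ℝ) ^ 2 := by ring
    rw [← le_div_iff₀' hq0, e9, div_eq_inv_mul _ (q : ℝ)]
    linarith
  have hfin := Finset.sum_le_sum (s := Finset.univ) fun k _ => hk k
  rw [Finset.sum_sub_distrib, Finset.sum_const, Finset.card_univ, ZMod.card, nsmul_eq_mul] at hfin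
  rw [← hCX]
  have e10 : 10 / (L : ℝ) ^ 2 = 9 / (L : ℝ) ^ 2 + 1 / (L : ℝ) ^ 2 := by ring
  rw [e10]
  nlinarith

/-- One stage. -/
theorem stage_aux (hM : MoveGoal.{u}) (hT : TraceGoal.{u}) {S T : Type} [Fintype S] [Fintype T]
    [DecidableEq S] [DecidableEq T] {u : ι → H →L[ℂ] H} (slot : S ↪ ι) (tg : T ↪ ι)
    (line : T → List S) (L d : ℕ) (hu : IsBasis Ω u) (hst : ∀ s t, slot s ≠ tg t)
    (hl : Lines line L d) (hL : 3 ≤ L) {α β : ℝ} (hα : 0 ≤ α) (hβ : 0 ≤ β) :
    ∀ A : Finset T, ∃ (v : ι → H →L[ℂ] H) (γ : T → ℂ), IsBasis Ω v ∧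
      vn (Set.range v) = vn (Set.range u) ∧
      (∀ i, (∀ s, slot s ≠ i) → (∀ t ∈ A, tg t ≠ i) → v i = u i) ∧ (∀ t, ‖γ t‖ = 1) ∧
      α * ∑ t ∈ A, gap Ω (γ t • u (tg t)) (wprod (fun s => v (slot s)) (line t)) +
        β * ∑ s, gap Ω (u (slot s)) (v (slot s))
        ≤ A.card * ((α * (L * d) + β * L) * (10 / (L : ℝ) ^ 2)) := by
  obtain ⟨q, hq, hline⟩ := exists_line (Ω := Ω) (ι := ι) hM hT L hL
  intro A
  induction A using Finset.induction_on with
  | empty =>
    refine ⟨u, fun _ => 1, hu, rfl, fun _ _ _ => rfl, fun _ => norm_one, ?_⟩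
    simp [gap_self hu.unit (hu.mem _)]
  | insert t₀ A ht₀ ih =>
    obtain ⟨v, γ, hv, hvn, hoff, hγ, hpot⟩ := ih
    set a := 10 / (L : ℝ) ^ 2 with ha
    have ha0 : 0 ≤ a := by positivity
    set ll := (line t₀).map slot with hll
    have htg : tg t₀ ∉ ll := fun hm => by
      obtain ⟨s, -, hs⟩ := List.mem_map.1 hm
      exact hst s t₀ hs
    obtain ⟨w, g, hw, hinc⟩ := hline hv ll (by rw [hll, List.length_map, hl.len])
      ((hl.nodup t₀).map slot.injective) (tg t₀) htg
    have hv0 : v (tg t₀) = u (tg t₀) :=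
      hoff _ (fun s => hst s t₀) fun t ht h => ht₀ (tg.injective h ▸ ht)
    have hsame : ∀ k s, s ∉ line t₀ → w k (slot s) = v (slot s) := fun k s hs =>
      (hw k).2.2.1 _ (fun hm => by
        obtain ⟨s', h1, h2⟩ := List.mem_map.1 hm
        exact hs (slot.injective h2 ▸ h1)) (hst s t₀)
    have htr := hT.2 Ω u hu
    have hvM : ∀ i, v i ∈ vn (Set.range u) := fun i => hvn ▸ subset_vn _ ⟨i, rfl⟩
    have hwM : ∀ k i, w k i ∈ vn (Set.range u) := fun k i =>
      hvn ▸ (hw k).2.1 ▸ subset_vn _ ⟨i, rfl⟩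
    -- one slot changed inside a word
    have hword : ∀ s ∈ line t₀, ∀ x, x ∈ vn (Set.range u) → x ∈ unitary (H →L[ℂ] H) →
        ∀ l1 l2 : List S, (∀ r ∈ l1 ++ l2, r ∉ line t₀) →
        ∑ k, gap Ω x (wprod (fun r => w k (slot r)) (l1 ++ s :: l2))
          ≤ q * (gap Ω x (wprod (fun r => v (slot r)) (l1 ++ s :: l2)) + a) := by
      intro s hs x hx hxu l1 l2 hout
      set A1 := wprod (fun r => v (slot r)) l1 with hA1
      set B1 := wprod (fun r => v (slot r)) l2 with hB1
      have hA : A1 ∈ vn (Set.range u) ∧ A1 ∈ unitary (H →L[ℂ] H) :=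
        ⟨vn_wprod _ fun r _ => hvM _, wprod_unitary _ fun r _ => hv.mem _⟩
      have hB : B1 ∈ vn (Set.range u) ∧ B1 ∈ unitary (H →L[ℂ] H) :=
        ⟨vn_wprod _ fun r _ => hvM _, wprod_unitary _ fun r _ => hv.mem _⟩
      have hwk : ∀ k, wprod (fun r => w k (slot r)) (l1 ++ s :: l2) = A1 * (w k (slot s) * B1) := by
        intro k
        rw [wprod_append, wprod_cons, hA1, hB1]
        congr 1
        · simp only [wprod]
          congr 1
          exact List.map_congr_left fun r hr => hsame k r (hout r (List.mem_append_left _ hr))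
        · congr 1
          simp only [wprod]
          congr 1
          exact List.map_congr_left fun r hr => hsame k r (hout r (List.mem_append_right _ hr))
      have hvk : wprod (fun r => v (slot r)) (l1 ++ s :: l2) = A1 * (v (slot s) * B1) := by
        rw [wprod_append, wprod_cons]
      set C := B1 * (star x * A1) with hC
      have hcy : ∀ y ∈ vn (Set.range u), tr Ω (star x * (A1 * (y * B1))) = tr Ω (C * y) := by
        intro y hy
        rw [show star x * (A1 * (y * B1)) = star x * A1 * y * B1 by simp only [mul_assoc],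
          htr _ (vn_mul (vn_mul (vn_star hx) hA.1) hy) _ hB.1, hC]
        simp only [mul_assoc]
      have h := hinc (slot s) (List.mem_map_of_mem hs) C
        (hvn.symm ▸ vn_mul hB.1 (vn_mul (vn_star hx) hA.1))
        (mul_mem hB.2 (mul_mem (Unitary.star_mem hxu) hA.2))
      simp only [gap, hwk, hvk, hcy _ (hvM _), hcy _ (hwM _ _), Finset.sum_sub_distrib,
        Finset.sum_const, Finset.card_univ, ZMod.card, nsmul_eq_mul, mul_one]
      linarith
    -- the increments
    set touched := fun t => ∃ s ∈ line t, s ∈ line t₀ with htouched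
    have hA : ∀ t ∈ A, ∑ k, gap Ω (γ t • u (tg t)) (wprod (fun r => w k (slot r)) (line t))
        ≤ q * (gap Ω (γ t • u (tg t)) (wprod (fun r => v (slot r)) (line t))
          + if touched t then a else 0) := by
      intro t ht
      have hne : t ≠ t₀ := fun h => ht₀ (h ▸ ht)
      by_cases hto : touched t
      · obtain ⟨s, hs, hs0⟩ := id hto
        obtain ⟨l1, l2, hsp⟩ := List.mem_iff_append.1 hs
        rw [if_pos hto, hsp]
        refine hword s hs0 _ (vn_smul _ (subset_vn _ ⟨tg t, rfl⟩)) ?_ l1 l2 fun r hr hr0 => ?_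
        · have := mul_mem (smul_one_unitary (H := H) (hγ t)) (hu.mem (tg t))
          rwa [smul_mul_assoc, one_mul] at this
        · have hnd := hl.nodup t
          rw [hsp, List.nodup_middle, List.nodup_cons] at hnd
          have hrt : r ∈ line t := by
            rw [hsp]; simp only [List.mem_append, List.mem_cons] at hr ⊢; tauto
          exact hnd.1 (hl.meet t t₀ hne r s hrt hr0 hs hs0 ▸ hr)
      · rw [if_neg hto, add_zero]
        refine le_of_eq ?_
        rw [Finset.sum_eq_card_nsmul (b := gap Ω (γ t • u (tg t))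
            (wprod (fun r => v (slot r)) (line t))) fun k _ => ?_,
          Finset.card_univ, ZMod.card, nsmul_eq_mul]
        congr 1
        simp only [wprod]
        congr 1
        exact List.map_congr_left fun r hr => hsame k r fun h => hto ⟨r, hr, h⟩
    have hS : ∀ s, ∑ k, gap Ω (u (slot s)) (w k (slot s))
        ≤ q * (gap Ω (u (slot s)) (v (slot s)) + if s ∈ line t₀ then a else 0) := by
      intro s
      by_cases hs : s ∈ line t₀
      · have h := hword s hs (u (slot s)) (subset_vn _ ⟨_, rfl⟩) (hu.mem _) [] [] (by simp)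
        simpa [hs, wprod] using h
      · rw [if_neg hs, add_zero]
        refine le_of_eq ?_
        simp [hsame _ s hs, ZMod.card]
    have hcntT : ∑ t ∈ A, (if touched t then a else 0) ≤ (L * d : ℕ) * a := by
      rw [← Finset.sum_filter, Finset.sum_const, nsmul_eq_mul]
      refine mul_le_mul_of_nonneg_right (Nat.cast_le.2 ?_) ha0
      calc (A.filter touched).card
          ≤ ((line t₀).toFinset.biUnion fun s => Finset.univ.filter fun t => s ∈ line t).card :=
            Finset.card_le_card fun t ht => by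
              obtain ⟨s, hs, hs0⟩ := (Finset.mem_filter.1 ht).2
              exact Finset.mem_biUnion.2 ⟨s, List.mem_toFinset.2 hs0,
                Finset.mem_filter.2 ⟨Finset.mem_univ _, hs⟩⟩
        _ ≤ (line t₀).toFinset.card * d := Finset.card_biUnion_le_card_mul _ _ _ fun s _ => hl.deg s
        _ ≤ L * d := Nat.mul_le_mul_right _ ((List.toFinset_card_le _).trans (hl.len t₀).le)
    have hcntS : ∑ s, (if s ∈ line t₀ then a else 0) ≤ (L : ℕ) * a := by
      rw [← Finset.sum_filter, Finset.sum_const, nsmul_eq_mul]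
      refine mul_le_mul_of_nonneg_right (Nat.cast_le.2 ?_) ha0
      refine le_of_eq_of_le ?_ ((List.toFinset_card_le (line t₀)).trans (hl.len t₀).le)
      congr 1
      ext s
      simp
    -- the sum over the phases
    set pot := fun k => α * ∑ t ∈ A, gap Ω (γ t • u (tg t)) (wprod (fun r => w k (slot r)) (line t))
        + β * ∑ s, gap Ω (u (slot s)) (w k (slot s)) with hpotdef
    have htot : ∑ k, pot k ≤ q * (A.card * ((α * (L * d) + β * L) * a)
        + (α * (L * d) + β * L) * a) := by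
      simp only [hpotdef, Finset.sum_add_distrib, ← Finset.mul_sum]
      rw [Finset.sum_comm, Finset.sum_comm (γ := ZMod q) (α := S)]
      refine (add_le_add (mul_le_mul_of_nonneg_left (Finset.sum_le_sum hA) hα)
        (mul_le_mul_of_nonneg_left (Finset.sum_le_sum fun s _ => hS s) hβ)).trans ?_
      simp only [← Finset.mul_sum, Finset.sum_add_distrib]
      push_cast at hcntT
      have h1 := mul_le_mul_of_nonneg_left hcntT hα
      have h2 := mul_le_mul_of_nonneg_left hcntS hβ
      have hq0 : (0 : ℝ) ≤ q := Nat.cast_nonneg q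
      have h3 := mul_le_mul_of_nonneg_left (add_le_add (add_le_add hpot h1) h2) hq0
      nlinarith
    obtain ⟨k, -, hk⟩ := Finset.exists_le_of_sum_le (s := (Finset.univ : Finset (ZMod q)))
      (f := pot) (g := fun _ => (A.card : ℝ) * ((α * (L * d) + β * L) * a)
        + (α * (L * d) + β * L) * a) Finset.univ_nonempty
      (by rwa [Finset.sum_const, Finset.card_univ, ZMod.card, nsmul_eq_mul])
    obtain ⟨hb, hbn, hboff, hgk, hprod⟩ := hw k
    refine ⟨w k, Function.update γ t₀ (g k), hb, hbn.trans hvn, fun i h1 h2 => ?_, fun t => ?_, ?_⟩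
    · rw [hboff i (fun hm => ?_) (fun h => h2 t₀ (Finset.mem_insert_self _ _) h.symm),
        hoff i h1 fun t ht => h2 t (Finset.mem_insert_of_mem ht)]
      obtain ⟨s, -, hs⟩ := List.mem_map.1 hm
      exact h1 s hs
    · by_cases ht : t = t₀
      · rw [ht, Function.update_self]; exact hgk
      · rw [Function.update_of_ne ht]; exact hγ t
    · have hnew : gap Ω (Function.update γ t₀ (g k) t₀ • u (tg t₀))
          (wprod (fun r => w k (slot r)) (line t₀)) = 0 := by
        rw [Function.update_self, ← hv0, ← hprod, hll, wprod, wprod, List.map_map]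
        exact gap_self hu.unit (Submonoid.list_prod_mem _ fun x hx => by
          obtain ⟨r, -, rfl⟩ := List.mem_map.1 hx
          exact hb.mem _)
      rw [Finset.sum_insert ht₀, hnew, zero_add, Finset.card_insert_of_notMem ht₀]
      have e : ∑ t ∈ A, gap Ω (Function.update γ t₀ (g k) t • u (tg t))
          (wprod (fun r => w k (slot r)) (line t))
          = ∑ t ∈ A, gap Ω (γ t • u (tg t)) (wprod (fun r => w k (slot r)) (line t)) :=
        Finset.sum_congr rfl fun t ht => by
          rw [Function.update_of_ne fun h : t = t₀ => ht₀ (h ▸ ht)]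
      rw [e]
      simp only [hpotdef] at hk
      push_cast
      linarith

end Vale.Agent.P086.StageLine

namespace Vale.Agent.P086

universe u

open StageLine

/-- One stage: the products along the lines become the targets. -/
theorem stageGoal (hM : MoveGoal.{u}) (hT : TraceGoal.{u}) : StageGoal.{u} := by
  intro H _ _ _ Ω ι _ _ S T _ _ _ _ u slot tg line L d hu hst hl hL hd
  rcases isEmpty_or_nonempty T with hTe | ⟨⟨t₁⟩⟩
  · refine ⟨u, fun _ => 1, hu, rfl, fun _ _ _ => rfl, fun _ => norm_one, by simp, ?_⟩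
    simp only [sub_self, zero_apply, norm_zero, ne_eq, OfNat.ofNat_ne_zero, not_false_eq_true,
      zero_pow, Finset.sum_const_zero]
    positivity
  have hS : Nonempty S := by
    obtain ⟨s, l, -⟩ := List.exists_cons_of_length_eq_add_one
      (show (line t₁).length = (L - 1) + 1 by rw [hl.len]; omega)
    exact ⟨s⟩
  set N := (Fintype.card T : ℝ) with hN
  set M := (Fintype.card S : ℝ) with hMdef
  have hN0 : 0 < N := by rw [hN]; exact_mod_cast Fintype.card_pos_iff.2 ⟨t₁⟩
  have hM0 : 0 < M := by rw [hMdef]; exact_mod_cast Fintype.card_pos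
  have hL0 : (0 : ℝ) < L := by exact_mod_cast (by omega : 0 < L)
  have hd0 : (0 : ℝ) < d := by exact_mod_cast hd
  set a := 10 / (L : ℝ) ^ 2 with ha
  have ha0 : 0 < a := by positivity
  set e1 := N * (L * d) * a with he1
  set e2 := M * d * a with he2
  have h10 : 0 < e1 := by positivity
  have h20 : 0 < e2 := by positivity
  obtain ⟨v, γ, hv, hvn, hoff, hγ, hpot⟩ := stage_aux hM hT slot tg line L d hu hst hl hL
    (inv_nonneg.2 h10.le) (inv_nonneg.2 h20.le) Finset.univ
  -- double counting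
  have hTL : N * L ≤ M * d := by
    have h1 : ∑ t, (line t).toFinset.card = Fintype.card T * L := by
      simp [List.toFinset_card_of_nodup (hl.nodup _), hl.len]
    have h2 : ∑ t, (line t).toFinset.card ≤ Fintype.card S * d := by
      have e : ∀ t, (line t).toFinset.card = ∑ s, if s ∈ line t then 1 else 0 := fun t => by
        rw [Finset.sum_boole, Nat.cast_id]
        congr 1
        ext s
        simp
      rw [Finset.sum_congr rfl fun t _ => e t, Finset.sum_comm, ← smul_eq_mul]
      refine Finset.sum_le_card_nsmul _ _ _ fun s _ => ?_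
      rw [Finset.sum_boole, Nat.cast_id]
      exact hl.deg s
    rw [h1] at h2
    rw [hN, hMdef]
    exact_mod_cast h2
  have htot : (Finset.univ : Finset T).card * ((e1⁻¹ * (L * d) + e2⁻¹ * L) * a) ≤ (2 : ℝ) := by
    rw [Finset.card_univ, ← hN]
    have h1 : N * (e1⁻¹ * (L * d) * a) = 1 := by rw [he1]; field_simp
    have h2 : N * (e2⁻¹ * L * a) ≤ 1 := by
      rw [he2]
      field_simp
      linarith
    nlinarith
  set G1 := ∑ t, gap Ω (γ t • u (tg t)) (wprod (fun s => v (slot s)) (line t)) with hG1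
  set G2 := ∑ s, gap Ω (u (slot s)) (v (slot s)) with hG2
  have hun : ∀ t, γ t • u (tg t) ∈ unitary (H →L[ℂ] H) := fun t => by
    have := mul_mem (smul_one_unitary (H := H) (hγ t)) (hu.mem (tg t))
    rwa [smul_mul_assoc, one_mul] at this
  have hG10 : 0 ≤ G1 := Finset.sum_nonneg fun t _ =>
    gap_nonneg hu.unit (hun t) (wprod_unitary _ fun s _ => hv.mem _)
  have hG20 : 0 ≤ G2 := Finset.sum_nonneg fun s _ => gap_nonneg hu.unit (hu.mem _) (hv.mem _)
  have hsum : e1⁻¹ * G1 + e2⁻¹ * G2 ≤ 2 := hpot.trans htot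
  have hb1 : G1 ≤ 2 * e1 := by
    rw [← div_le_iff₀ h10, div_eq_inv_mul]
    nlinarith [inv_nonneg.2 h20.le]
  have hb2 : G2 ≤ 2 * e2 := by
    rw [← div_le_iff₀ h20, div_eq_inv_mul]
    nlinarith [inv_nonneg.2 h10.le]
  refine ⟨v, γ, hv, hvn, fun i h1 h2 => hoff i h1 fun t _ => h2 t, hγ, ?_, ?_⟩
  · rw [Finset.sum_congr rfl fun t _ =>
      sq_norm_sub hu.unit (hun t) (wprod_unitary (v := fun s => v (slot s)) _ fun s _ => hv.mem _),
      ← Finset.mul_sum]
    refine (mul_le_mul_of_nonneg_left hb1 zero_le_two).trans ?_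
    rw [he1, ha]
    have : 2 * (2 * (N * (L * d) * (10 / (L : ℝ) ^ 2))) = N * (40 * d / L) := by field_simp; ring
    rw [this]
    gcongr
    norm_num
  · rw [Finset.sum_congr rfl fun s _ => sq_norm_sub hu.unit (hu.mem (slot s)) (hv.mem (slot s)),
      ← Finset.mul_sum]
    refine (mul_le_mul_of_nonneg_left hb2 zero_le_two).trans ?_
    rw [he2, ha]
    have : 2 * (2 * (M * d * (10 / (L : ℝ) ^ 2))) = M * (40 * d / (L : ℝ) ^ 2) := by ring
    rw [this]
    gcongr
    norm_num

end Vale.Agent.P086
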