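import Mathlib

/-!
# A continuous root on the circle for the encoding stage

`root n L z = exp (i (arg z) (1 - |kern n z| ^ 2) / L)` with the averaged geometric kernel at `-1`.
Its `L`-th power differs from `z` by at most `π |kern n z| ^ 2`, and for large `q` its mean over the
rotations by `q`-th roots of unity is nearly one real constant `≥ cos (π / L)`.
-/

noncomputable section

namespace Vale.Agent.P086.StagePhase

open scoped ComplexConjugate
open Finset

/-- The averaged geometric kernel, of absolute value one at `-1`. -/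
def kern (n : ℕ) (z : ℂ) : ℂ := (n : ℂ)⁻¹ * ∑ j ∈ range n, (-z) ^ j

/-- The lift of the root. -/
def ang (n : ℕ) (z : ℂ) : ℝ := Complex.arg z * (1 - ‖kern n z‖ ^ 2)

/-- The root. -/
def root (n L : ℕ) (z : ℂ) : ℂ := Complex.exp (((ang n z / L : ℝ) : ℂ) * Complex.I)

theorem norm_kern_le (n : ℕ) {z : ℂ} (hz : ‖z‖ = 1) : ‖kern n z‖ ≤ 1 := by
  rcases Nat.eq_zero_or_pos n with rfl | hn
  · simp [kern]
  rw [kern, norm_mul, norm_inv, Complex.norm_natCast, inv_mul_le_iff₀ (by positivity), mul_one]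
  exact (norm_sum_le _ _).trans (by simp [hz])

theorem continuous_kern (n : ℕ) : Continuous (kern n) := by
  unfold kern
  fun_prop

theorem kern_neg_one {n : ℕ} (hn : 0 < n) : kern n (-1) = 1 := by
  simp [kern, inv_mul_cancel₀ (Nat.cast_ne_zero.2 hn.ne' : (n : ℂ) ≠ 0)]

theorem eq_neg_one_of_arg {z : ℂ} (hz : ‖z‖ = 1) (h : Complex.arg z = Real.pi) : z = -1 := by
  have := Complex.norm_mul_exp_arg_mul_I z
  rw [hz, h, Complex.exp_pi_mul_I] at this
  simpa using this.symm

theorem abs_ang_le (n : ℕ) {z : ℂ} (hz : ‖z‖ = 1) : |ang n z| ≤ Real.pi := by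
  have h := norm_kern_le n hz
  have h0 := norm_nonneg (kern n z)
  rw [ang, abs_mul, abs_of_nonneg (show (0 : ℝ) ≤ 1 - ‖kern n z‖ ^ 2 by nlinarith)]
  refine le_trans (mul_le_of_le_one_right (abs_nonneg _) ?_) (Complex.abs_arg_le_pi z)
  nlinarith

theorem continuousOn_ang {n : ℕ} (hn : 0 < n) :
    ContinuousOn (ang n) (Metric.sphere (0 : ℂ) 1) := by
  have hc : Continuous fun z => 1 - ‖kern n z‖ ^ 2 := by
    have := continuous_kern n
    fun_prop
  intro z hz
  refine ContinuousAt.continuousWithinAt ?_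
  rw [mem_sphere_zero_iff_norm] at hz
  by_cases h : z ∈ Complex.slitPlane
  · exact (Complex.continuousAt_arg h).mul hc.continuousAt
  · have h' : z = -1 := by
      refine eq_neg_one_of_arg hz ?_
      rw [Complex.mem_slitPlane_iff_arg] at h
      by_contra hne
      exact h ⟨hne, fun h0 => by simp [h0] at hz⟩
    subst h'
    have h0 : ang n (-1) = 0 := by simp [ang, kern_neg_one hn]
    rw [ContinuousAt, h0]
    have hl : Filter.Tendsto (fun z => Real.pi * |1 - ‖kern n z‖ ^ 2|) (nhds (-1)) (nhds 0) := by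
      have := (hc.abs.const_mul Real.pi).tendsto (-1 : ℂ)
      simpa [kern_neg_one hn] using this
    refine squeeze_zero_norm (fun z => ?_) hl
    rw [ang, Real.norm_eq_abs, abs_mul]
    exact mul_le_mul_of_nonneg_right (Complex.abs_arg_le_pi z) (abs_nonneg _)

theorem norm_root (n L : ℕ) (z : ℂ) : ‖root n L z‖ = 1 := Complex.norm_exp_ofReal_mul_I _

theorem continuousOn_root {n : ℕ} (hn : 0 < n) (L : ℕ) :
    ContinuousOn (root n L) (Metric.sphere (0 : ℂ) 1) := by
  have := continuousOn_ang hn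
  unfold root
  fun_prop

theorem ang_conj {n : ℕ} (hn : 0 < n) {z : ℂ} (hz : ‖z‖ = 1) :
    ang n (conj z) = -ang n z := by
  have hk : kern n (conj z) = conj (kern n z) := by simp [kern, map_sum]
  rw [ang, ang, hk, Complex.norm_conj, Complex.arg_conj]
  split_ifs with h
  · simp [eq_neg_one_of_arg hz h, kern_neg_one hn]
  · ring

theorem root_pow_sub_le (n : ℕ) {L : ℕ} (hL : 0 < L) {z : ℂ} (hz : ‖z‖ = 1) :
    ‖root n L z ^ L - z‖ ≤ Real.pi * ‖kern n z‖ ^ 2 := by
  have e1 : root n L z ^ L = Complex.exp ((ang n z : ℂ) * Complex.I) := by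
    rw [root, ← Complex.exp_nat_mul]
    congr 1
    have : (L : ℂ) ≠ 0 := Nat.cast_ne_zero.2 hL.ne'
    push_cast
    field_simp
  have e2 : z = Complex.exp ((Complex.arg z : ℂ) * Complex.I) := by
    conv_lhs => rw [← Complex.norm_mul_exp_arg_mul_I z, hz]
    simp
  have e3 : root n L z ^ L - z = z *
      (Complex.exp (Complex.I * ((-(Complex.arg z * ‖kern n z‖ ^ 2) : ℝ) : ℂ)) - 1) := by
    rw [e1, mul_sub, mul_one]
    congr 1
    conv_rhs => enter [1]; rw [e2]
    rw [← Complex.exp_add]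
    congr 1
    simp only [ang]
    push_cast
    ring
  rw [e3, norm_mul, hz, one_mul]
  refine Real.norm_exp_I_mul_ofReal_sub_one_le.trans ?_
  rw [Real.norm_eq_abs, abs_neg, abs_mul, abs_of_nonneg (sq_nonneg ‖kern n z‖)]
  exact mul_le_mul_of_nonneg_right (Complex.abs_arg_le_pi z) (sq_nonneg _)

theorem re_root_ge (n : ℕ) {L : ℕ} (hL : 0 < L) {z : ℂ} (hz : ‖z‖ = 1) :
    1 - 8 / (L : ℝ) ^ 2 ≤ (root n L z).re ∧ (root n L z).re ≤ 1 := by
  rw [root, Complex.exp_ofReal_mul_I_re]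
  refine ⟨le_trans ?_ Real.one_sub_sq_div_two_le_cos, Real.cos_le_one _⟩
  have h1 : (ang n z) ^ 2 ≤ 16 := by
    have h := (abs_ang_le n hz).trans Real.pi_le_four
    rw [← sq_abs]
    nlinarith [abs_nonneg (ang n z)]
  rw [div_pow]
  have : (ang n z) ^ 2 / (L : ℝ) ^ 2 ≤ 16 / (L : ℝ) ^ 2 := by gcongr
  have : 8 / (L : ℝ) ^ 2 = 16 / (L : ℝ) ^ 2 / 2 := by ring
  linarith

/-- For large `q` the mean of the root over rotations is nearly a real constant. -/
theorem exists_mean {n : ℕ} (hn : 0 < n) {L : ℕ} (hL : 0 < L) {ε : ℝ} (hε : 0 < ε) :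
    ∃ (q : ℕ) (_ : NeZero q) (c : ℝ), 1 - 8 / (L : ℝ) ^ 2 ≤ c ∧ c ≤ 1 ∧ ∀ z : ℂ, ‖z‖ = 1 →
      ‖(q : ℂ)⁻¹ * ∑ k : ZMod q, root n L (ZMod.stdAddChar k * z) - c‖ ≤ ε := by
  have hu := (isCompact_sphere (0 : ℂ) 1).uniformContinuousOn_of_continuous (continuousOn_root hn L)
  obtain ⟨δ, hδ, hdist⟩ := Metric.uniformContinuousOn_iff.1 hu ε hε
  obtain ⟨m, hm⟩ := exists_nat_gt (2 * Real.pi / δ)
  set q := m + 1 with hqdef
  have hq : NeZero q := ⟨Nat.succ_ne_zero _⟩
  have hq0 : (q : ℝ) ≠ 0 := Nat.cast_ne_zero.2 hq.out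
  have hqδ : 2 * Real.pi / q < δ := by
    rw [div_lt_iff₀ hδ] at hm
    rw [div_lt_iff₀ (by positivity), hqdef]
    push_cast
    nlinarith
  set f : ℂ → ℂ := fun z => (q : ℂ)⁻¹ * ∑ k : ZMod q, root n L (ZMod.stdAddChar k * z) with hf
  have hnc : ∀ k : ZMod q, ‖ZMod.stdAddChar k‖ = 1 := fun k => AddChar.norm_apply _ k
  set c := (f 1).re with hc
  have hreal : f 1 = (c : ℂ) := by
    refine (Complex.conj_eq_iff_re.1 ?_).symm
    simp only [hf, mul_one, map_mul, map_inv₀, map_natCast, map_sum]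
    congr 1
    refine Fintype.sum_equiv (Equiv.neg (ZMod q)) _ _ fun k => ?_
    simp only [Equiv.neg_apply, AddChar.map_neg_eq_conj, root, ← Complex.exp_conj, map_mul,
      Complex.conj_ofReal, Complex.conj_I, ang_conj hn (hnc k)]
    push_cast
    ring_nf
  have hbd : 1 - 8 / (L : ℝ) ^ 2 ≤ c ∧ c ≤ 1 := by
    have e : c = (q : ℝ)⁻¹ * ∑ k : ZMod q, (root n L (ZMod.stdAddChar k)).re := by
      simp only [hc, hf, mul_one, Complex.mul_re, Complex.re_sum, ← Complex.ofReal_natCast,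
        ← Complex.ofReal_inv, Complex.ofReal_re, Complex.ofReal_im, zero_mul, sub_zero]
    have h := fun k : ZMod q => re_root_ge n hL (hnc k)
    have hlo := Finset.card_nsmul_le_sum univ _ _ fun k _ => (h k).1
    have hhi := Finset.sum_le_card_nsmul univ _ _ fun k _ => (h k).2
    simp only [card_univ, ZMod.card, nsmul_eq_mul] at hlo hhi
    rw [e]
    exact ⟨(le_inv_mul_iff₀ (by positivity)).2 hlo, (inv_mul_le_iff₀ (by positivity)).2 hhi⟩
  refine ⟨q, hq, c, hbd.1, hbd.2, fun z hz => ?_⟩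
  -- rotate `z` next to `1`
  set s : ℝ := Complex.arg z * q / (2 * Real.pi) with hs
  set j : ℤ := ⌊s⌋ with hj
  set β : ℝ := Complex.arg z - 2 * Real.pi * j / q with hβ
  have hβb : |β| ≤ 2 * Real.pi / q := by
    have h1 := Int.floor_le s
    have h2 := Int.lt_floor_add_one s
    have e : β = 2 * Real.pi / q * (s - j) := by
      rw [hβ, hs]
      field_simp
    rw [e, abs_mul, abs_of_pos (by positivity), abs_of_nonneg (by rw [hj]; linarith)]
    exact mul_le_of_le_one_right (by positivity) (by rw [hj]; linarith)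
  set z' : ℂ := Complex.exp (Complex.I * (β : ℂ)) with hz'
  have hz'n : ‖z'‖ = 1 := by rw [hz', mul_comm, Complex.norm_exp_ofReal_mul_I]
  have hzz : z = ZMod.stdAddChar (j : ZMod q) * z' := by
    rw [ZMod.stdAddChar_coe, hz', ← Complex.exp_add, hβ]
    conv_lhs => rw [← Complex.norm_mul_exp_arg_mul_I z, hz, Complex.ofReal_one, one_mul]
    congr 1
    push_cast
    ring
  have hshift : f z = f z' := by
    simp only [hf]
    congr 1
    refine Fintype.sum_equiv (Equiv.addRight (j : ZMod q)) _ _ fun k => ?_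
    rw [Equiv.coe_addRight, AddChar.map_add_eq_mul, mul_assoc, ← hzz]
  have hclose : ∀ k : ZMod q, ‖root n L (ZMod.stdAddChar k * z') - root n L (ZMod.stdAddChar k)‖ ≤ ε := by
    intro k
    rw [← dist_eq_norm]
    refine (hdist _ ?_ _ ?_ ?_).le
    · rw [mem_sphere_zero_iff_norm, norm_mul, hnc, hz'n, one_mul]
    · rw [mem_sphere_zero_iff_norm, hnc]
    · rw [dist_eq_norm, show ZMod.stdAddChar k * z' - ZMod.stdAddChar k
        = ZMod.stdAddChar k * (z' - 1) by ring, norm_mul, hnc, one_mul]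
      refine lt_of_le_of_lt Real.norm_exp_I_mul_ofReal_sub_one_le ?_
      rw [Real.norm_eq_abs]
      exact hβb.trans_lt hqδ
  change ‖f z - c‖ ≤ ε
  rw [hshift, ← hreal]
  simp only [hf, mul_one, ← mul_sub, ← Finset.sum_sub_distrib, norm_mul, norm_inv,
    Complex.norm_natCast]
  rw [inv_mul_le_iff₀ (by positivity)]
  refine (norm_sum_le_of_le univ fun k _ => hclose k).trans (le_of_eq ?_)
  simp [ZMod.card]

end Vale.Agent.P086.StagePhase
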