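import Vale.Agent.P086.Spec
import Vale.Agent.P086.Lemmas
import Vale.Agent.P086.Encode.StagePhase

/-!
# One line of a stage

For a unitary `w` in the algebra of the product `P` along the line and the target, a change of
basis replaces each slot `v` by nearly `v R w R⋆` and makes the product equal to `γ` times the
target. The roots of `P⋆ target` supply such `w` with nearly scalar mean.
-/

noncomputable section

namespace Vale.Agent.P086.StageLine

open scoped InnerProductSpace BigOperators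

universe u

variable {H : Type u} [NormedAddCommGroup H] [InnerProductSpace ℂ H] [CompleteSpace H]
variable {Ω : H} {ι : Type} [Fintype ι] [DecidableEq ι]

/-! ## Elementary facts -/

theorem star_mul_self' {a : H →L[ℂ] H} (ha : a ∈ unitary (H →L[ℂ] H)) : star a * a = 1 :=
  Unitary.star_mul_self_of_mem ha

theorem mul_star_self' {a : H →L[ℂ] H} (ha : a ∈ unitary (H →L[ℂ] H)) : a * star a = 1 :=
  Unitary.mul_star_self_of_mem ha

omit [Fintype ι] [DecidableEq ι] in
theorem wprod_unitary {v : ι → H →L[ℂ] H} (l : List ι) (h : ∀ i ∈ l, v i ∈ unitary (H →L[ℂ] H)) :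
    wprod v l ∈ unitary (H →L[ℂ] H) :=
  Submonoid.list_prod_mem _ fun _ hx => by
    obtain ⟨i, hi, rfl⟩ := List.mem_map.1 hx
    exact h i hi

theorem smul_one_unitary {γ : ℂ} (hγ : ‖γ‖ = 1) : γ • (1 : H →L[ℂ] H) ∈ unitary (H →L[ℂ] H) := by
  have h : star γ * γ = 1 := by
    rw [Complex.star_def, Complex.conj_mul', hγ]
    simp
  refine Unitary.mem_iff.2 ⟨?_, ?_⟩
  · rw [star_smul, star_one, smul_mul_assoc, one_mul, smul_smul, h, one_smul]
  · rw [star_smul, star_one, smul_mul_assoc, one_mul, smul_smul, mul_comm, h, one_smul]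

/-- Right multiplication by a unitary keeps the trace norm. -/
theorem norm_mul_unitary {s : Set (H →L[ℂ] H)}
    (htr : ∀ a ∈ vn s, ∀ b ∈ vn s, tr Ω (a * b) = tr Ω (b * a)) {a b : H →L[ℂ] H}
    (ha : a ∈ vn s) (hb : b ∈ vn s) (hu : b ∈ unitary (H →L[ℂ] H)) :
    ‖(a * b) Ω‖ = ‖a Ω‖ := by
  have e : tr Ω (star (a * b) * (a * b)) = tr Ω (star a * a) := by
    rw [star_mul, mul_assoc, htr _ (vn_star hb) _ (vn_mul (vn_star ha) (vn_mul ha hb))]
    simp only [mul_assoc, mul_star_self' hu, mul_one]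
  rw [tr_star_mul, tr_star_mul, Complex.ofReal_inj] at e
  exact (sq_eq_sq₀ (norm_nonneg _) (norm_nonneg _)).1 e

theorem unitary_norm_apply {b : H →L[ℂ] H} (hb : b ∈ unitary (H →L[ℂ] H)) (x : H) :
    ‖b x‖ = ‖x‖ := by
  have e : ⟪b x, b x⟫_ℂ = ⟪x, x⟫_ℂ := by
    rw [← ContinuousLinearMap.adjoint_inner_right, ← ContinuousLinearMap.star_eq_adjoint,
      ← mul_apply_eq_comp, star_mul_self' hb]
    rfl
  rw [inner_self_eq_norm_sq_to_K, inner_self_eq_norm_sq_to_K] at e
  have e' : ‖b x‖ ^ 2 = ‖x‖ ^ 2 := by exact_mod_cast e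
  exact (sq_eq_sq₀ (norm_nonneg _) (norm_nonneg _)).1 e'

/-! ## Elementary changes of basis -/

variable (hM : MoveGoal.{u})
include hM

/-- Multiply one member by a unitary of the algebra of the others. -/
theorem shear1 {u : ι → H →L[ℂ] H} (hu : IsBasis Ω u) (i : ι) (g : H →L[ℂ] H)
    (hg : g ∈ unitary (H →L[ℂ] H)) (hgv : g ∈ vn (u '' {j | j ≠ i})) :
    IsBasis Ω (Function.update u i (u i * g)) ∧
      vn (Set.range (Function.update u i (u i * g))) = vn (Set.range u) := by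
  have h := (hM Ω u hu).2 {j | j ≠ i} (fun j => if j = i then g else 1)
    (fun j hj => if_neg hj) (fun j => by split_ifs <;> [exact ⟨hg, hgv⟩; exact ⟨one_mem _, vn_one⟩])
  have e : (fun j => u j * if j = i then g else 1) = Function.update u i (u i * g) := by
    funext j
    by_cases hj : j = i
    · subst hj; simp
    · simp [hj]
  rwa [e] at h

/-- Exchange two members. -/
theorem swap_basis {u : ι → H →L[ℂ] H} (hu : IsBasis Ω u) (a b : ι) :
    IsBasis Ω (fun i => u (Equiv.swap a b i)) ∧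
      vn (Set.range fun i => u (Equiv.swap a b i)) = vn (Set.range u) := by
  have h := (hM Ω u hu).1 (FreeGroup.freeGroupCongr (Equiv.swap a b))
  have e : (fun i => fgWord u (FreeGroup.freeGroupCongr (Equiv.swap a b) (FreeGroup.of i)))
      = fun i => u (Equiv.swap a b i) := by
    funext i
    simp [fgWord]
  rwa [e] at h

/-! ## The three passes along a list -/

omit hM in
/-- The value at the head, one for the empty list. -/
def hd (z : ι → H →L[ℂ] H) : List ι → H →L[ℂ] H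
  | [] => 1
  | f :: _ => z f

omit hM in
/-- `y` holds the suffix products of `u`. -/
def Suf (u y : ι → H →L[ℂ] H) : List ι → Prop
  | [] => True
  | e :: l => y e = u e * wprod u l ∧ Suf u y l

omit hM in
/-- `z` is `y` times powers of `w`. -/
def Mid (w : H →L[ℂ] H) (y z : ι → H →L[ℂ] H) : List ι → Prop
  | [] => True
  | e :: l => z e = y e * w ^ (l.length + 1) ∧ Mid w y z l

omit hM in
/-- `v` holds the successive quotients of `z`. -/
def Quo (z v : ι → H →L[ℂ] H) : List ι → Prop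
  | [] => True
  | e :: l => v e = z e * star (hd z l) ∧ Quo z v l

omit hM [Fintype ι] [DecidableEq ι] in
theorem hd_suf {u y : ι → H →L[ℂ] H} : ∀ {l : List ι}, Suf u y l → hd y l = wprod u l
  | [], _ => rfl
  | _ :: _, h => h.1

omit hM [Fintype ι] [DecidableEq ι] in
theorem hd_mid {w : H →L[ℂ] H} {y z : ι → H →L[ℂ] H} : ∀ {l : List ι}, Mid w y z l →
    hd z l = hd y l * w ^ l.length
  | [], _ => by simp [hd]
  | _ :: _, h => h.1

omit hM [Fintype ι] [DecidableEq ι] in
theorem Suf.congr {u y y' : ι → H →L[ℂ] H} : ∀ {l : List ι}, Suf u y l →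
    (∀ i ∈ l, y' i = y i) → Suf u y' l
  | [], _, _ => trivial
  | e :: _, h, he => ⟨(he e List.mem_cons_self).trans h.1,
      Suf.congr h.2 fun i hi => he i (List.mem_cons_of_mem _ hi)⟩

omit hM [Fintype ι] [DecidableEq ι] in
theorem Mid.congr {w : H →L[ℂ] H} {y y' z z' : ι → H →L[ℂ] H} : ∀ {l : List ι}, Mid w y z l →
    (∀ i ∈ l, y' i = y i) → (∀ i ∈ l, z' i = z i) → Mid w y' z' l
  | [], _, _, _ => trivial
  | e :: _, h, hy, he => ⟨by rw [he e List.mem_cons_self, hy e List.mem_cons_self]; exact h.1,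
      Mid.congr h.2 (fun i hi => hy i (List.mem_cons_of_mem _ hi))
        fun i hi => he i (List.mem_cons_of_mem _ hi)⟩

omit hM [Fintype ι] [DecidableEq ι] in
theorem Quo.congr {z z' v : ι → H →L[ℂ] H} : ∀ {l : List ι}, Quo z v l →
    (∀ i ∈ l, z' i = z i) → Quo z' v l
  | [], _, _ => trivial
  | [e], h, he => ⟨by rw [he e List.mem_cons_self]; exact h.1, trivial⟩
  | e :: f :: _, h, he => ⟨by
      rw [he e List.mem_cons_self]
      change v e = z e * star (z' f)
      rw [he f (List.mem_cons_of_mem _ List.mem_cons_self)]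
      exact h.1, Quo.congr h.2 fun i hi => he i (List.mem_cons_of_mem _ hi)⟩

theorem exists_suf : ∀ (l : List ι), l.Nodup → ∀ {u : ι → H →L[ℂ] H}, IsBasis Ω u →
    ∃ y, IsBasis Ω y ∧ vn (Set.range y) = vn (Set.range u) ∧ (∀ i, i ∉ l → y i = u i) ∧
      Suf u y l := by
  intro l
  induction l with
  | nil => exact fun _ u hu => ⟨u, hu, rfl, fun _ _ => rfl, trivial⟩
  | cons e l ih =>
    intro hnd u hu
    obtain ⟨he, hl⟩ := List.nodup_cons.1 hnd
    obtain ⟨y, hy, hv, hoff, hsuf⟩ := ih hl hu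
    have hg : hd y l ∈ unitary (H →L[ℂ] H) ∧ hd y l ∈ vn (y '' {j | j ≠ e}) := by
      cases l with
      | nil => exact ⟨one_mem _, vn_one⟩
      | cons f r => exact ⟨hy.mem f, subset_vn _ ⟨f, fun h => he (by simp [h]), rfl⟩⟩
    obtain ⟨h1, h2⟩ := shear1 hM hy e _ hg.1 hg.2
    refine ⟨_, h1, h2.trans hv, fun i hi => ?_, ?_, ?_⟩
    · rw [List.mem_cons, not_or] at hi
      rw [Function.update_of_ne hi.1, hoff i hi.2]
    · rw [Function.update_self, hoff e he, hd_suf hsuf]
    · exact hsuf.congr fun i hi => Function.update_of_ne (fun h => he (by rw [← h]; exact hi)) _ _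

theorem exists_mid {w : H →L[ℂ] H} (hw : w ∈ unitary (H →L[ℂ] H)) {O : Set ι} :
    ∀ (l : List ι), l.Nodup → (∀ i ∈ l, i ∉ O) → ∀ {y : ι → H →L[ℂ] H}, IsBasis Ω y →
    w ∈ vn (y '' O) →
    ∃ z, IsBasis Ω z ∧ vn (Set.range z) = vn (Set.range y) ∧ (∀ i, i ∉ l → z i = y i) ∧
      Mid w y z l := by
  intro l
  induction l with
  | nil => exact fun _ _ y hy _ => ⟨y, hy, rfl, fun _ _ => rfl, trivial⟩
  | cons e l ih =>
    intro hnd hO y hy hwv
    obtain ⟨he, hl⟩ := List.nodup_cons.1 hnd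
    obtain ⟨h1, h2⟩ := shear1 hM hy e (w ^ (l.length + 1)) (pow_mem hw _)
      (vn_pow (vn_mono (Set.image_mono (show O ⊆ {j | j ≠ e} from fun i hi hie =>
        hO e List.mem_cons_self ((show i = e from hie) ▸ hi))) hwv) _)
    set y1 := Function.update y e (y e * w ^ (l.length + 1)) with hy1
    have himg : y1 '' O = y '' O := Set.image_congr fun i hi =>
      Function.update_of_ne (fun hie : i = e => hO i (hie.symm ▸ List.mem_cons_self) hi) _ _
    obtain ⟨z, hz, hv, hoff, hmid⟩ :=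
      ih hl (fun i hi => hO i (List.mem_cons_of_mem _ hi)) h1 (himg.symm ▸ hwv)
    refine ⟨z, hz, hv.trans h2, fun i hi => ?_, ?_, ?_⟩
    · rw [List.mem_cons, not_or] at hi
      rw [hoff i hi.2, hy1, Function.update_of_ne hi.1]
    · rw [hoff e he, hy1, Function.update_self]
    · exact hmid.congr
        (fun i hi => by rw [hy1, Function.update_of_ne (fun h => he (by rw [← h]; exact hi))])
        fun i _ => rfl

theorem exists_quo : ∀ (l : List ι), l.Nodup → ∀ {z : ι → H →L[ℂ] H}, IsBasis Ω z →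
    ∃ v, IsBasis Ω v ∧ vn (Set.range v) = vn (Set.range z) ∧ (∀ i, i ∉ l → v i = z i) ∧
      Quo z v l := by
  intro l
  induction l with
  | nil => exact fun _ z hz => ⟨z, hz, rfl, fun _ _ => rfl, trivial⟩
  | cons e l ih =>
    intro hnd z hz
    obtain ⟨he, hl⟩ := List.nodup_cons.1 hnd
    have hg : star (hd z l) ∈ unitary (H →L[ℂ] H) ∧ star (hd z l) ∈ vn (z '' {j | j ≠ e}) := by
      cases l with
      | nil => simpa [hd] using (⟨one_mem _, vn_one⟩ :
          (1 : H →L[ℂ] H) ∈ unitary (H →L[ℂ] H) ∧ (1 : H →L[ℂ] H) ∈ vn (z '' {j | j ≠ e}))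
      | cons f r =>
        exact ⟨Unitary.star_mem (hz.mem f),
          vn_star (subset_vn _ ⟨f, fun h => he (by simp [h]), rfl⟩)⟩
    obtain ⟨h1, h2⟩ := shear1 hM hz e _ hg.1 hg.2
    obtain ⟨v, hv1, hv, hoff, hq⟩ := ih hl h1
    refine ⟨v, hv1, hv.trans h2, fun i hi => ?_, ?_, ?_⟩
    · rw [List.mem_cons, not_or] at hi
      rw [hoff i hi.2, Function.update_of_ne hi.1]
    · rw [hoff e he, Function.update_self]
    · exact hq.congr fun i hi => (Function.update_of_ne (fun h => he (by rw [← h]; exact hi)) _ _).symm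

omit hM [Fintype ι] [DecidableEq ι] in
theorem wprod_quo {z v : ι → H →L[ℂ] H} : ∀ {l : List ι}, Quo z v l →
    (∀ i ∈ l, z i ∈ unitary (H →L[ℂ] H)) → wprod v l = hd z l
  | [], _, _ => rfl
  | [e], h, _ => by
      rw [wprod_cons, h.1]
      simp [wprod, hd]
  | e :: f :: r, h, hu => by
      rw [wprod_cons, wprod_quo h.2 fun i hi => hu i (List.mem_cons_of_mem _ hi), h.1]
      simp only [hd]
      rw [mul_assoc, star_mul_self' (hu f (List.mem_cons_of_mem _ List.mem_cons_self)), mul_one]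

omit hM in
/-- The members after `e`. -/
def after (e : ι) : List ι → List ι
  | [] => []
  | a :: l => if e = a then l else after e l

omit hM [Fintype ι] in
theorem quo_value {w : H →L[ℂ] H} (hw : w ∈ unitary (H →L[ℂ] H)) {u y z v : ι → H →L[ℂ] H} :
    ∀ {l : List ι}, Suf u y l → Mid w y z l → Quo z v l →
    ∀ e ∈ l, v e = u e * (wprod u (after e l) * w * star (wprod u (after e l)))
  | [], _, _, _, e, he => absurd he List.not_mem_nil
  | a :: l, hs, hm, hq, e, he => by
      by_cases hea : e = a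
      · subst hea
        rw [after, if_pos rfl]
        have e1 : w ^ (l.length + 1) * star (w ^ l.length) = w := by
          rw [pow_succ', mul_assoc, mul_star_self' (pow_mem hw _), mul_one]
        rw [hq.1, hm.1, hs.1, hd_mid hm.2, hd_suf hs.2, star_mul]
        calc u e * wprod u l * w ^ (l.length + 1) * (star (w ^ l.length) * star (wprod u l))
            = u e * wprod u l * (w ^ (l.length + 1) * star (w ^ l.length)) * star (wprod u l) := by
              simp only [mul_assoc]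
          _ = _ := by rw [e1]; simp only [mul_assoc]
      · rw [after, if_neg hea]
        exact quo_value hw hs.2 hm.2 hq.2 e ((List.mem_cons.1 he).resolve_left hea)

/-! ## The change of basis of one line -/

theorem base (hT : TraceGoal.{u}) {u : ι → H →L[ℂ] H} (hu : IsBasis Ω u) (e₀ : ι) (rest : List ι)
    (hnd : (e₀ :: rest).Nodup) (i₀ : ι) (htg : i₀ ∉ e₀ :: rest) {w : H →L[ℂ] H}
    (hw : w ∈ unitary (H →L[ℂ] H))
    (hwv : w ∈ vn {star (wprod u (e₀ :: rest)) * u i₀}) {γ : ℂ} (hγ : ‖γ‖ = 1) :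
    ∃ v, IsBasis Ω v ∧ vn (Set.range v) = vn (Set.range u) ∧
      (∀ i, i ∉ e₀ :: rest → i ≠ i₀ → v i = u i) ∧ wprod v (e₀ :: rest) = γ • u i₀ ∧
      ∀ e ∈ e₀ :: rest,
        ‖(v e - u e * (wprod u (after e (e₀ :: rest)) * w
          * star (wprod u (after e (e₀ :: rest))))) Ω‖
          ≤ ‖(γ • (star (wprod u (e₀ :: rest)) * u i₀) - w ^ (rest.length + 1)) Ω‖ := by
  obtain ⟨he₀, hnr⟩ := List.nodup_cons.1 hnd
  rw [List.mem_cons, not_or] at htg
  obtain ⟨y, hy, hyv, hyoff, hsuf⟩ := exists_suf hM (e₀ :: rest) hnd hu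
  set P := wprod u (e₀ :: rest) with hP
  have hye : y e₀ = P := hsuf.1
  have hyt : y i₀ = u i₀ := hyoff i₀ (by simp [htg.1, htg.2])
  have hwy : w ∈ vn (y '' {e₀, i₀}) := by
    refine vn_le ?_ hwv
    rintro x rfl
    rw [← hye, ← hyt]
    exact vn_mul (vn_star (subset_vn _ ⟨e₀, by simp, rfl⟩)) (subset_vn _ ⟨i₀, by simp, rfl⟩)
  obtain ⟨z, hz, hzv, hzoff, hmid⟩ := exists_mid hM hw rest hnr (O := {e₀, i₀})
    (fun i hi => by
      simp only [Set.mem_insert_iff, Set.mem_singleton_iff, not_or]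
      exact ⟨fun h => he₀ (h ▸ hi), fun h => htg.2 (h ▸ hi)⟩) hy hwy
  obtain ⟨hs, hsv⟩ := swap_basis hM hz e₀ i₀
  obtain ⟨hx, hxv⟩ := shear1 hM hs e₀ (γ • 1) (smul_one_unitary hγ) (vn_smul _ vn_one)
  set x := Function.update (fun i => z (Equiv.swap e₀ i₀ i)) e₀
    (z (Equiv.swap e₀ i₀ e₀) * γ • 1) with hxdef
  have hxe : x e₀ = γ • u i₀ := by
    rw [hxdef, Function.update_self, Equiv.swap_apply_left, hzoff i₀ htg.2, hyt,
      mul_smul_comm, mul_one]
  have hxr : ∀ i, i ≠ e₀ → i ≠ i₀ → x i = z i := fun i h1 h2 => by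
    rw [hxdef, Function.update_of_ne h1, Equiv.swap_apply_of_ne_of_ne h1 h2]
  have hxl : ∀ i ∈ rest, x i = z i := fun i hi =>
    hxr i (fun h => he₀ (h ▸ hi)) (fun h => htg.2 (h ▸ hi))
  obtain ⟨v, hv, hvv, hvoff, hq⟩ := exists_quo hM (e₀ :: rest) hnd hx
  have hvn : vn (Set.range v) = vn (Set.range u) :=
    hvv.trans (hxv.trans (hsv.trans (hzv.trans hyv)))
  refine ⟨v, hv, hvn, fun i hi hit => ?_, ?_, fun e he => ?_⟩
  · have hi' := hi
    rw [List.mem_cons, not_or] at hi'
    rw [hvoff i hi, hxr i hi'.1 hit, hzoff i hi'.2, hyoff i hi]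
  · rw [wprod_quo hq fun i _ => hx.mem i]
    exact hxe
  have hmidx : Mid w y x rest := hmid.congr (fun _ _ => rfl) hxl
  rcases List.mem_cons.1 he with rfl | he
  · -- the first slot
    set R := wprod u rest with hR
    have hRu : R ∈ unitary (H →L[ℂ] H) := wprod_unitary _ fun i _ => hu.mem i
    have hRv : R ∈ vn (Set.range u) := vn_wprod _ fun i _ => subset_vn _ ⟨i, rfl⟩
    have hwvu : w ∈ vn (Set.range u) := by
      rw [← hyv]
      exact vn_mono (Set.image_subset_range _ _) hwy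
    rw [after, if_pos rfl, ← hR]
    refine le_of_eq ?_
    have hve : v e = γ • u i₀ * (star (w ^ rest.length) * star R) := by
      rw [hq.1, hd_mid hmidx, hd_suf hsuf.2, star_mul, hxe]
    have e1 : v e - u e * (R * w * star R)
        = P * (γ • (star P * u i₀) - w ^ (rest.length + 1)) * (star (w ^ rest.length) * star R) := by
      have hPP : P * star P = 1 := mul_star_self' (wprod_unitary _ fun i _ => hu.mem i)
      have hww : w ^ (rest.length + 1) * star (w ^ rest.length) = w := by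
        rw [pow_succ', mul_assoc, mul_star_self' (pow_mem hw _), mul_one]
      rw [hve, mul_sub, sub_mul]
      congr 1
      · rw [mul_smul_comm, ← mul_assoc P, hPP, one_mul]
      · rw [hP, wprod_cons, ← hR]
        calc u e * (R * w * star R)
            = u e * (R * (w ^ (rest.length + 1) * star (w ^ rest.length)) * star R) := by rw [hww]
          _ = _ := by simp only [mul_assoc]
    have htr := hT.2 Ω u hu
    have hPv : P ∈ vn (Set.range u) := vn_wprod _ fun i _ => subset_vn _ ⟨i, rfl⟩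
    have hX : γ • (star P * u i₀) - w ^ (rest.length + 1) ∈ vn (Set.range u) :=
      vn_sub (vn_smul _ (vn_mul (vn_star hPv) (subset_vn _ ⟨i₀, rfl⟩))) (vn_pow hwvu _)
    rw [e1, norm_mul_unitary htr (vn_mul hPv hX) (vn_mul (vn_star (vn_pow hwvu _)) (vn_star hRv))
      (mul_mem (Unitary.star_mem (pow_mem hw _)) (Unitary.star_mem hRu)),
      mul_apply_eq_comp, unitary_norm_apply (wprod_unitary _ fun i _ => hu.mem i)]
  · have hve := quo_value hw hsuf.2 hmidx hq.2 e he
    rw [after, if_neg (fun h : e = e₀ => he₀ (h ▸ he)), hve, sub_self]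
    simp

omit hM

/-! ## Powers of the quotient target over product -/

theorem quot_haar {u : ι → H →L[ℂ] H} (hu : IsBasis Ω u) (l : List ι) {i₀ : ι} (htg : i₀ ∉ l)
    (m : ℕ) (hm : m ≠ 0) : tr Ω ((star (wprod u l) * u i₀) ^ m) = 0 := by
  let ev : FreeGroup ι →* unitary (H →L[ℂ] H) := FreeGroup.lift fun i => ⟨u i, hu.mem i⟩
  have hev : ∀ g, fgWord u g = (ev g : H →L[ℂ] H) := fun g => by
    conv_rhs => rw [← FreeGroup.mk_toWord (x := g)]
    simp only [ev, fgWord, FreeGroup.lift_mk, Submonoid.coe_list_prod, List.map_map]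
    congr 1
    refine List.map_congr_left fun p _ => ?_
    obtain ⟨i, b⟩ := p
    cases b <;> simp [← Unitary.star_eq_inv]
  set g : FreeGroup ι := (l.map FreeGroup.of).prod⁻¹ * FreeGroup.of i₀ with hg
  have hp : (ev (l.map FreeGroup.of).prod : H →L[ℂ] H) = wprod u l := by
    rw [map_list_prod, Submonoid.coe_list_prod, List.map_map, List.map_map, wprod]
    congr 1
  have he : (ev g : H →L[ℂ] H) = star (wprod u l) * u i₀ := by
    rw [hg, map_mul, map_inv, Submonoid.coe_mul, ← Unitary.star_eq_inv, Unitary.coe_star, hp]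
    simp [ev]
  have hne : g ^ m ≠ 1 := by
    intro h
    let φ : FreeGroup ι →* Multiplicative ℤ :=
      FreeGroup.lift fun i => Multiplicative.ofAdd (if i = i₀ then 1 else 0)
    have hl : φ (l.map FreeGroup.of).prod = 1 := by
      rw [map_list_prod, List.map_map]
      refine List.prod_eq_one fun x hx => ?_
      obtain ⟨i, hi, rfl⟩ := List.mem_map.1 hx
      simp [φ, show i ≠ i₀ from fun h => htg (h ▸ hi)]
    have := congrArg φ h
    rw [map_pow, hg, map_mul, map_inv, hl, inv_one, one_mul, map_one] at this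
    simp only [φ, FreeGroup.lift_apply_of, if_true, ← ofAdd_nsmul, ← ofAdd_zero] at this
    have := Multiplicative.ofAdd.injective this
    simp at this
    exact hm this
  rw [← he, ← SubmonoidClass.coe_pow, ← map_pow, ← hev, hu.free, if_neg hne]

/-! ## Roots with nearly scalar mean -/

theorem norm_kern_apply {D : H →L[ℂ] H} (hD : D ∈ unitary (H →L[ℂ] H)) (hΩ : ‖Ω‖ = 1)
    (hh : ∀ m : ℕ, m ≠ 0 → tr Ω (D ^ m) = 0) {ζ : ℂ} (hζ : ‖ζ‖ = 1) (n : ℕ) :
    ‖((n : ℂ)⁻¹ • ∑ j ∈ Finset.range n, ζ ^ j • D ^ j) Ω‖ ^ 2 ≤ (n : ℝ)⁻¹ := by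
  have hshift : ∀ j k : ℕ, ⟪(D ^ j) Ω, (D ^ (j + k)) Ω⟫_ℂ = tr Ω (D ^ k) := fun j k => by
    rw [pow_add, mul_apply_eq_comp, ← ContinuousLinearMap.adjoint_inner_right,
      ← ContinuousLinearMap.star_eq_adjoint, ← mul_apply_eq_comp,
      star_mul_self' (pow_mem hD j)]
    rfl
  have horth : Orthonormal ℂ fun j : ℕ => (D ^ j) Ω := by
    refine ⟨fun j => (unitary_norm_apply (pow_mem hD j) Ω).trans hΩ, fun i j hij => ?_⟩
    rcases lt_or_gt_of_ne hij with h | h
    · obtain ⟨k, rfl⟩ := Nat.exists_eq_add_of_le h.le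
      rw [hshift, hh k (by omega)]
    · obtain ⟨k, rfl⟩ := Nat.exists_eq_add_of_le h.le
      rw [← inner_conj_symm, hshift, hh k (by omega), map_zero]
  have e : ((∑ j ∈ Finset.range n, ζ ^ j • D ^ j : H →L[ℂ] H) Ω)
      = ∑ j ∈ Finset.range n, ζ ^ j • (D ^ j) Ω := by simp
  have e2 : ‖∑ j ∈ Finset.range n, ζ ^ j • (D ^ j) Ω‖ ^ 2 = (n : ℝ) := by
    have h := horth.inner_sum (fun j => ζ ^ j) (fun j => ζ ^ j) (Finset.range n)
    simp only [Complex.conj_mul', norm_pow, hζ, one_pow, Complex.ofReal_one, Finset.sum_const,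
      Finset.card_range, nsmul_eq_mul, mul_one] at h
    rw [inner_self_eq_norm_sq_to_K] at h
    apply Complex.ofReal_injective
    rw [Complex.ofReal_pow, Complex.ofReal_natCast]
    exact h
  rw [smul_apply, norm_smul, e, mul_pow, e2, norm_inv, Complex.norm_natCast]
  rcases Nat.eq_zero_or_pos n with rfl | hn
  · simp
  · exact le_of_eq (by field_simp)

theorem phases (L : ℕ) (hL : 0 < L) {θ : ℝ} (hθ : 0 < θ) :
    ∃ (q : ℕ) (_ : NeZero q) (c : ℝ), 1 - 8 / (L : ℝ) ^ 2 ≤ c ∧ c ≤ 1 ∧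
      ∀ (D : H →L[ℂ] H), D ∈ unitary (H →L[ℂ] H) → ‖Ω‖ = 1 →
      (∀ m : ℕ, m ≠ 0 → tr Ω (D ^ m) = 0) →
      ∃ w : ZMod q → H →L[ℂ] H, (∀ k, w k ∈ unitary (H →L[ℂ] H) ∧ w k ∈ vn {D}) ∧
        ‖(q : ℂ)⁻¹ • ∑ k, w k - (c : ℂ) • 1‖ ≤ θ ∧
        ∀ k, ‖(ZMod.stdAddChar k • D - w k ^ L) Ω‖ ≤ θ := by
  obtain ⟨n, hn⟩ := exists_nat_gt ((8 / θ) ^ 2)
  have hn0 : 0 < n := by
    have h := (sq_nonneg (8 / θ)).trans_lt hn
    exact_mod_cast h
  obtain ⟨q, hq, c, hc1, hc2, hmean⟩ := StagePhase.exists_mean hn0 hL hθ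
  refine ⟨q, hq, c, hc1, hc2, fun D hD hΩ hh => ?_⟩
  have hnormal : IsStarNormal D := ⟨(star_mul_self' hD).trans (mul_star_self' hD).symm⟩
  have hspec : ∀ x ∈ spectrum ℂ D, ‖x‖ = 1 := fun x hx =>
    mem_sphere_zero_iff_norm.1 (Unitary.spectrum_subset_circle ⟨D, hD⟩ hx)
  have hnc : ∀ k : ZMod q, ‖ZMod.stdAddChar k‖ = 1 := fun k => AddChar.norm_apply _ k
  have hmaps : ∀ k : ZMod q, Set.MapsTo (fun z => ZMod.stdAddChar k * z) (spectrum ℂ D)
      (Metric.sphere (0 : ℂ) 1) := fun k x hx => by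
    rw [mem_sphere_zero_iff_norm, norm_mul, hnc, hspec x hx, one_mul]
  set f : ZMod q → ℂ → ℂ := fun k z => StagePhase.root n L (ZMod.stdAddChar k * z) with hf
  have hfc : ∀ k, ContinuousOn (f k) (spectrum ℂ D) := fun k =>
    (StagePhase.continuousOn_root hn0 L).comp (by fun_prop) (hmaps k)
  refine ⟨fun k => cfc (f k) D, fun k => ⟨?_, vn_elemental (subset_vn _ (Set.mem_singleton D))
    (cfc_mem_elemental (f k) D)⟩, ?_, fun k => ?_⟩
  · refine (cfc_unitary_iff (f k) D (hf := hfc k)).2 fun x _ => ?_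
    rw [Complex.star_def, Complex.conj_mul', StagePhase.norm_root]
    simp
  · have e : (q : ℂ)⁻¹ • ∑ k, cfc (f k) D - (c : ℂ) • 1
        = cfc (fun z => (q : ℂ)⁻¹ * ∑ k, f k z - c) D := by
      have hsum : ContinuousOn (fun z => ∑ k, f k z) (spectrum ℂ D) :=
        continuousOn_finsetSum _ fun k _ => hfc k
      rw [cfc_sub (fun z => (q : ℂ)⁻¹ * ∑ k, f k z) (fun _ => (c : ℂ)) D
          (continuousOn_const.mul hsum) continuousOn_const,
        cfc_const_mul _ _ _ hsum, cfc_const (c : ℂ) D, Algebra.algebraMap_eq_smul_one]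
      congr 2
      rw [← cfc_sum f D Finset.univ (fun k _ => hfc k)]
      congr 1
      funext z
      simp
    rw [e]
    exact norm_cfc_le hθ.le fun x hx => hmean x (hspec x hx)
  · set ζ := ZMod.stdAddChar k with hζ
    set ε₀ := θ / 16 with hε₀
    have hε₀0 : 0 < ε₀ := by positivity
    set K : ℂ → ℂ := fun z => StagePhase.kern n (ζ * z) with hK
    set g : ℂ → ℂ := fun z => f k z ^ L - ζ * z with hg
    set G : ℂ → ℂ := fun z => g z * starRingEnd ℂ (K z) / ((‖K z‖ ^ 2 + ε₀ : ℝ) : ℂ) with hG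
    have hKc : ContinuousOn K (spectrum ℂ D) :=
      (StagePhase.continuous_kern n).comp_continuousOn (by fun_prop)
    have hgc : ContinuousOn g (spectrum ℂ D) := ((hfc k).pow L).sub (by fun_prop)
    have hGc : ContinuousOn G (spectrum ℂ D) := by
      refine (hgc.mul (Complex.continuous_conj.comp_continuousOn hKc)).div ?_ fun x _ => ?_
      · exact Complex.continuous_ofReal.comp_continuousOn ((hKc.norm.pow 2).add continuousOn_const)
      · exact_mod_cast ne_of_gt (by positivity : (0 : ℝ) < ‖K x‖ ^ 2 + ε₀)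
    have hgb : ∀ x ∈ spectrum ℂ D, ‖g x‖ ≤ 4 * ‖K x‖ ^ 2 := fun x hx => by
      refine (StagePhase.root_pow_sub_le n hL ?_).trans ?_
      · rw [norm_mul, hnc, hspec x hx, one_mul]
      · exact mul_le_mul_of_nonneg_right Real.pi_le_four (sq_nonneg _)
    have hGb : ∀ x ∈ spectrum ℂ D, ‖G x‖ ≤ 4 := fun x hx => by
      have h1 : ‖K x‖ ≤ 1 :=
        StagePhase.norm_kern_le n (by rw [norm_mul, hnc, hspec x hx, one_mul])
      rw [hG, norm_div, norm_mul, Complex.norm_conj, Complex.norm_real,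
        Real.norm_of_nonneg (by positivity), div_le_iff₀ (by positivity)]
      calc ‖g x‖ * ‖K x‖ ≤ 4 * ‖K x‖ ^ 2 * 1 :=
            mul_le_mul (hgb x hx) h1 (norm_nonneg _) (by positivity)
        _ ≤ _ := by linarith
    have hrest : ∀ x ∈ spectrum ℂ D, ‖g x - G x * K x‖ ≤ 4 * ε₀ := fun x hx => by
      have hd : (0 : ℝ) < ‖K x‖ ^ 2 + ε₀ := by positivity
      have e : g x - G x * K x = g x * ((ε₀ : ℝ) : ℂ) / ((‖K x‖ ^ 2 + ε₀ : ℝ) : ℂ) := by
        have hd' : ((‖K x‖ ^ 2 + ε₀ : ℝ) : ℂ) ≠ 0 := by exact_mod_cast hd.ne'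
        rw [hG]
        field_simp
        rw [Complex.conj_mul']
        push_cast
        ring
      rw [e, norm_div, norm_mul, Complex.norm_real, Complex.norm_real,
        Real.norm_of_nonneg hε₀0.le, Real.norm_of_nonneg hd.le, div_le_iff₀ hd]
      calc ‖g x‖ * ε₀ ≤ 4 * ‖K x‖ ^ 2 * ε₀ :=
            mul_le_mul_of_nonneg_right (hgb x hx) hε₀0.le
        _ ≤ _ := by nlinarith
    have eg : cfc g D = cfc (f k) D ^ L - ζ • D := by
      rw [hg, cfc_sub (fun z => f k z ^ L) (fun z => ζ * z) D ((hfc k).pow L) (by fun_prop),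
        cfc_pow _ _ _ (hfc k), cfc_const_mul_id ζ D]
    have eK : cfc K D = (n : ℂ)⁻¹ • ∑ j ∈ Finset.range n, (-ζ) ^ j • D ^ j := by
      have e : K = fun z => (n : ℂ)⁻¹ * ∑ j ∈ Finset.range n, (-ζ) ^ j * z ^ j := by
        funext z
        simp only [hK, StagePhase.kern, ← neg_mul, mul_pow]
      rw [e, cfc_const_mul _ _ _ (by fun_prop)]
      congr 1
      have e2 : (fun z : ℂ => ∑ j ∈ Finset.range n, (-ζ) ^ j * z ^ j)
          = ∑ j ∈ Finset.range n, fun z : ℂ => (-ζ) ^ j * z ^ j := by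
        funext z; simp
      rw [e2, cfc_sum _ _ _ (fun j _ => by fun_prop)]
      refine Finset.sum_congr rfl fun j _ => ?_
      rw [cfc_const_mul _ _ _ (by fun_prop), cfc_pow_id D j]
    have eGK : cfc g D = cfc (fun z => g z - G z * K z) D + cfc G D * cfc K D := by
      rw [cfc_sub g (fun z => G z * K z) D hgc (hGc.mul hKc), cfc_mul G K D hGc hKc,
        sub_add_cancel]
    have hsmall : ‖cfc K D Ω‖ ≤ θ / 8 := by
      rw [eK]
      refine le_of_pow_le_pow_left₀ two_ne_zero (by positivity)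
        ((norm_kern_apply hD hΩ hh (by rw [norm_neg, hnc]) n).trans ?_)
      rw [inv_le_iff_one_le_mul₀ (by exact_mod_cast hn0)]
      calc (1 : ℝ) = (θ / 8) ^ 2 * (8 / θ) ^ 2 := by field_simp
        _ ≤ _ := mul_le_mul_of_nonneg_left hn.le (sq_nonneg _)
    have hgΩ : ‖cfc g D Ω‖ ≤ θ := by
      rw [eGK, add_apply, mul_apply_eq_comp]
      refine (norm_add_le _ _).trans ?_
      have h1 : ‖cfc (fun z => g z - G z * K z) D Ω‖ ≤ 4 * ε₀ := by
        refine (norm_apply_le Ω hΩ _).trans (norm_cfc_le (by positivity) hrest)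
      have h2 : ‖cfc G D (cfc K D Ω)‖ ≤ 4 * (θ / 8) :=
        ((cfc G D).le_opNorm _).trans
          (mul_le_mul (norm_cfc_le (by norm_num) hGb) hsmall (norm_nonneg _) (by norm_num))
      rw [hε₀] at h1
      linarith
    rw [eg] at hgΩ
    change ‖(ζ • D - cfc (f k) D ^ L) Ω‖ ≤ θ
    rwa [← neg_sub (cfc (f k) D ^ L) (ζ • D), neg_apply, norm_neg]

end Vale.Agent.P086.StageLine
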